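import Vale.Agent.Lib.P262.V.Params

/-!
Weights and masks of a node; the two phases of the walk.
-/

open scoped RealInnerProductSpace BigOperators
open Module

set_option linter.unusedSectionVars false

namespace Vale.Agent.Lib.P262.V

open Vale.Agent.Lib.P262.U

variable {E : Type*} [NormedAddCommGroup E] [InnerProductSpace ℝ E] [FiniteDimensional ℝ E]
variable {ι : Type*} [DecidableEq ι]
variable {n : ℕ} {b : OrthonormalBasis (Fin n) ℝ E} {μ : Fin n → ℝ}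

/-- The weights of a node. -/
noncomputable def vw (Th Ac : Finset (Fin n)) (ε D : ℝ) (k : Fin n) : ℝ :=
  if k ∈ Th then 1 else if k ∈ Ac then 1 / ε else 1 / (ε * D)

lemma vw_nonneg (Th Ac : Finset (Fin n)) {ε D : ℝ} (hε : 0 ≤ ε) (hD : 0 ≤ D) (k : Fin n) :
    0 ≤ vw Th Ac ε D k := by
  unfold vw
  split_ifs <;> positivity

/-- The masks of a node. -/
noncomputable def mk (r : Fin n → ℕ) (Th Ac : Finset (Fin n)) (t : ℕ) : Finset (Fin n) :=
  (Th.filter (fun k => r k < 2 ^ t / 2)) ∪ (if Ac.card ≤ 2 ^ t / 2 then Ac else ∅)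

lemma mk_card {r : Fin n → ℕ} {Th : Finset (Fin n)} (hr2 : Set.InjOn r Th) (Ac : Finset (Fin n))
    (t : ℕ) : (mk r Th Ac t).card ≤ 2 ^ t := by
  unfold mk
  have h1 := Finset.card_union_le (Th.filter (fun k => r k < 2 ^ t / 2))
    (if Ac.card ≤ 2 ^ t / 2 then Ac else ∅)
  have h2 := rank_filter_le hr2 (2 ^ t / 2)
  have h3 : (if Ac.card ≤ 2 ^ t / 2 then Ac else ∅).card ≤ 2 ^ t / 2 := by
    split_ifs with h
    · exact h
    · simp
  have h4 : 2 * (2 ^ t / 2) ≤ 2 ^ t := Nat.mul_div_le _ _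
  omega

/-- The bound for the weights of a node on an item. -/
lemma vw_tau (Th Ac : Finset (Fin n)) {ε d D : ℝ} (hε : 0 ≤ ε) (hd : 0 ≤ d) (hD : 0 < D)
    (hnd : (n : ℝ) * d ≤ D) (c : Fin n → ℝ)
    (hTh : ∑ k ∈ Th, c k ^ 2 ≤ 1) (hSo : ∑ k ∈ Thᶜ, c k ^ 2 ≤ ε)
    (hdead : ∀ k, k ∉ Th → k ∉ Ac → c k ^ 2 ≤ ε * d) :
    ∑ k, vw Th Ac ε D k * c k ^ 2 ≤ 3 := by
  rw [← Finset.sum_add_sum_compl Th]
  have h1 : ∑ k ∈ Th, vw Th Ac ε D k * c k ^ 2 ≤ 1 := by
    refine le_trans (le_of_eq ?_) hTh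
    refine Finset.sum_congr rfl (fun k hk => ?_)
    unfold vw
    rw [if_pos hk, one_mul]
  by_cases hε0 : ε = 0
  · have h2 : ∑ k ∈ Thᶜ, vw Th Ac ε D k * c k ^ 2 = 0 := by
      apply Finset.sum_eq_zero
      intro k hk
      have hk' : k ∉ Th := by simpa using hk
      unfold vw
      rw [if_neg hk', hε0]
      simp
    rw [h2]
    linarith
  · have hεp : 0 < ε := lt_of_le_of_ne hε (Ne.symm hε0)
    have h2 : ∀ k ∈ Thᶜ, vw Th Ac ε D k * c k ^ 2 ≤ c k ^ 2 / ε + d / D := by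
      intro k hk
      have hk' : k ∉ Th := by simpa using hk
      unfold vw
      rw [if_neg hk']
      have h3 : 0 ≤ c k ^ 2 / ε := by positivity
      have h4 : 0 ≤ d / D := by positivity
      split_ifs with hA
      · have h5 : 1 / ε * c k ^ 2 = c k ^ 2 / ε := by ring
        rw [h5]
        linarith
      · have h5 := hdead k hk' hA
        have h6 : 1 / (ε * D) * c k ^ 2 ≤ 1 / (ε * D) * (ε * d) :=
          mul_le_mul_of_nonneg_left h5 (by positivity)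
        have h7 : 1 / (ε * D) * (ε * d) = d / D := by
          field_simp
        rw [h7] at h6
        linarith
    have h3 : ∑ k ∈ Thᶜ, vw Th Ac ε D k * c k ^ 2 ≤ ∑ k ∈ Thᶜ, (c k ^ 2 / ε + d / D) :=
      Finset.sum_le_sum h2
    rw [Finset.sum_add_distrib, Finset.sum_const, nsmul_eq_mul, ← Finset.sum_div] at h3
    have h4 : (∑ k ∈ Thᶜ, c k ^ 2) / ε ≤ 1 := by
      rw [div_le_one hεp]
      exact hSo
    have h5 : ((Thᶜ).card : ℝ) * (d / D) ≤ 1 := by
      have h6 : ((Thᶜ).card : ℝ) ≤ n := by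
        have : (Thᶜ).card ≤ n := by simpa using Finset.card_le_univ Thᶜ
        exact_mod_cast this
      have h7 : ((Thᶜ).card : ℝ) * (d / D) ≤ (n : ℝ) * (d / D) :=
        mul_le_mul_of_nonneg_right h6 (by positivity)
      have h8 : (n : ℝ) * (d / D) ≤ 1 := by
        have h9 : (n : ℝ) * (d / D) = (n : ℝ) * d / D := by ring
        rw [h9, div_le_one hD]
        exact hnd
      linarith
    linarith

/-- Using the weighted bound for a constant weight on a set. -/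
lemma pb_apply {K : Type*} [Fintype K] [DecidableEq K] {v : K → ℝ} {S : ℕ → Finset K} {T : ℕ} {C : ℝ}
    {e : K → ℝ} (hPB : PB v S T C e) (hv0 : ∀ k, 0 ≤ v k) (X : Finset K) {u : ℝ} (hu : 0 ≤ u)
    (hX : ∀ k ∈ X, u ≤ v k) (j : ℕ) (hsupp : ∀ t, j ≤ t → t ≤ T → X ⊆ S t) :
    u * ∑ k ∈ X, (e k) ^ 2 ≤ C * 2 ^ j := by
  have h := hPB (fun k => if k ∈ X then u else 0) j
    (fun k => by
      split_ifs
      · exact hu
      · exact le_rfl)
    (fun k => by
      split_ifs with hk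
      · exact hX k hk
      · exact hv0 k)
    (fun t h1 h2 k hk => by
      rw [if_neg]
      exact fun hk2 => hk (hsupp t h1 h2 hk2))
  refine le_trans (le_of_eq ?_) h
  rw [Finset.mul_sum]
  have h3 : ∀ k, (if k ∈ X then u else 0) * (e k) ^ 2 = if k ∈ X then u * (e k) ^ 2 else 0 := by
    intro k
    split_ifs <;> simp
  simp only [h3]
  rw [Finset.sum_ite_mem, Finset.univ_inter]

section cons

variable {r : Fin n → ℕ} {Th Ac : Finset (Fin n)} {ε D C : ℝ} {T : ℕ} {e : Fin n → ℝ}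

/-- The bound for the prefixes of the thick part. -/
lemma pb_prefix (hε : 0 ≤ ε) (hD : 0 ≤ D) (hPB : PB (vw Th Ac ε D) (mk r Th Ac) T C e) (j : ℕ) :
    ∑ k ∈ Th.filter (fun k => r k < 2 ^ j), (e k) ^ 2 ≤ (2 * C) * 2 ^ j := by
  have h := pb_apply hPB (vw_nonneg Th Ac hε hD) (Th.filter (fun k => r k < 2 ^ j)) zero_le_one
    (fun k hk => by
      unfold vw
      rw [if_pos (Finset.mem_filter.mp hk).1]) (j + 1) (fun t h1 _ k hk => by
      have h2 := Finset.mem_filter.mp hk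
      unfold mk
      apply Finset.mem_union_left
      refine Finset.mem_filter.mpr ⟨h2.1, ?_⟩
      have h3 : 2 ^ (j + 1) ≤ 2 ^ t := Nat.pow_le_pow_right (by norm_num) h1
      have h4 : 2 ^ (j + 1) / 2 = 2 ^ j := by
        rw [pow_succ]
        omega
      have h5 : 2 ^ (j + 1) / 2 ≤ 2 ^ t / 2 := Nat.div_le_div_right h3
      have h6 := h2.2
      omega)
  rw [one_mul] at h
  refine h.trans (le_of_eq ?_)
  rw [pow_succ]
  ring

/-- The bound for the thick part against all the forms of a rank. -/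
lemma pb_thick {μ : Fin n → ℝ} (hμ : ∀ k, 0 ≤ μ k) (hC : 0 ≤ C) (hε : 0 ≤ ε) (hD : 0 ≤ D)
    (hr1 : ∀ k ∈ Th, r k < Th.card) (hr2 : Set.InjOn r Th)
    (hr3 : ∀ k ∈ Th, ∀ l ∈ Th, r l ≤ r k → μ l ≤ μ k)
    (hPB : PB (vw Th Ac ε D) (mk r Th Ac) T C e) {κ : ℝ} (hκ : 0 < κ) :
    ∑ k ∈ Th, κ / (μ k + κ) * (e k) ^ 2 ≤ (16 * C) * tauS μ Th κ := by
  have h := abel_form Th r hr1 hr2 (fun k => κ / (μ k + κ)) (fun k => (e k) ^ 2)
    (fun k => by
      have := hμ k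
      positivity) (fun k => sq_nonneg _)
    (fun k hk l hl hlk => by
      have h1 := hr3 k hk l hl hlk
      have h2 := hμ l
      apply div_le_div_of_nonneg_left hκ.le (by positivity)
      linarith)
    (C := 2 * C) (by positivity) (fun j => pb_prefix hε hD hPB j)
  refine h.trans (le_of_eq ?_)
  unfold tauS
  ring

/-- The bound for the whole thick part. -/
lemma pb_th_all (hε : 0 ≤ ε) (hD : 0 ≤ D) (hPB : PB (vw Th Ac ε D) (mk r Th Ac) T C e) :
    ∑ k ∈ Th, (e k) ^ 2 ≤ C * 2 ^ (T + 1) := by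
  have h := pb_apply hPB (vw_nonneg Th Ac hε hD) Th zero_le_one
    (fun k hk => by
      unfold vw
      rw [if_pos hk]) (T + 1) (fun t h1 h2 => by omega)
  rwa [one_mul] at h

/-- The bound for the active part. -/
lemma pb_active (hεp : 0 < ε) (hD : 0 ≤ D) (hC : 0 ≤ C) (hd : Disjoint Th Ac) (hr : 1 ≤ Ac.card)
    (hPB : PB (vw Th Ac ε D) (mk r Th Ac) T C e) :
    ∑ k ∈ Ac, (e k) ^ 2 ≤ 4 * C * (ε * (Ac.card : ℝ)) := by
  set j := Nat.clog 2 Ac.card + 1 with hj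
  have h1 : Ac.card ≤ 2 ^ Nat.clog 2 Ac.card := Nat.le_pow_clog (by norm_num) _
  have h := pb_apply hPB (vw_nonneg Th Ac hεp.le hD) Ac (u := 1 / ε) (by positivity)
    (fun k hk => by
      unfold vw
      rw [if_neg (Finset.disjoint_right.mp hd hk), if_pos hk]) j (fun t h2 _ k hk => by
      unfold mk
      apply Finset.mem_union_right
      have h3 : 2 ^ j ≤ 2 ^ t := Nat.pow_le_pow_right (by norm_num) h2
      have h4 : 2 ^ j / 2 = 2 ^ Nat.clog 2 Ac.card := by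
        rw [hj, pow_succ]
        omega
      have h5 : 2 ^ j / 2 ≤ 2 ^ t / 2 := Nat.div_le_div_right h3
      rw [if_pos (by omega)]
      exact hk)
  have h6 : ((2 : ℝ) ^ j) ≤ 4 * (Ac.card : ℝ) := by
    have h7 : 2 ^ j ≤ 4 * Ac.card := by
      rcases Nat.lt_or_ge 1 Ac.card with h8 | h8
      · have h9 := Nat.pow_pred_clog_lt_self (by norm_num : 1 < 2) h8
        have h10 : 0 < Nat.clog 2 Ac.card := Nat.clog_pos (by norm_num) h8
        have h11 : 2 ^ Nat.clog 2 Ac.card = 2 * 2 ^ (Nat.clog 2 Ac.card).pred := by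
          rw [← pow_succ']
          congr 1
          exact (Nat.succ_pred_eq_of_pos h10).symm
        rw [hj, pow_succ, h11]
        omega
      · have h9 : Ac.card = 1 := by omega
        rw [hj, h9]
        simp
    exact_mod_cast h7
  have h7 : 1 / ε * ∑ k ∈ Ac, (e k) ^ 2 ≤ C * (4 * (Ac.card : ℝ)) :=
    h.trans (mul_le_mul_of_nonneg_left h6 hC)
  have h8 : ∑ k ∈ Ac, (e k) ^ 2 = ε * (1 / ε * ∑ k ∈ Ac, (e k) ^ 2) := by
    field_simp
  rw [h8]
  have h9 := mul_le_mul_of_nonneg_left h7 hεp.le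
  refine h9.trans (le_of_eq ?_)
  ring

/-- The bound for the dead part. -/
lemma pb_dead (hεp : 0 < ε) (hDp : 0 < D) (hPB : PB (vw Th Ac ε D) (mk r Th Ac) T C e) :
    ∑ k ∈ (Th ∪ Ac)ᶜ, (e k) ^ 2 ≤ C * 2 ^ (T + 1) * (ε * D) := by
  have h := pb_apply hPB (vw_nonneg Th Ac hεp.le hDp.le) (Th ∪ Ac)ᶜ (u := 1 / (ε * D)) (by positivity)
    (fun k hk => by
      have hk' : k ∉ Th ∪ Ac := by simpa using hk
      simp only [Finset.mem_union, not_or] at hk'
      unfold vw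
      rw [if_neg hk'.1, if_neg hk'.2]) (T + 1) (fun t h1 h2 => by omega)
  have h8 : ∑ k ∈ (Th ∪ Ac)ᶜ, (e k) ^ 2 = (ε * D) * (1 / (ε * D) * ∑ k ∈ (Th ∪ Ac)ᶜ, (e k) ^ 2) := by
    field_simp
  rw [h8]
  have h9 := mul_le_mul_of_nonneg_left h (by positivity : 0 ≤ ε * D)
  refine h9.trans (le_of_eq ?_)
  ring

end cons

/-- The two phases of the walk. -/
lemma node_walk2 (x : ι → E) (A' : Finset ι) (b : OrthonormalBasis (Fin n) ℝ E) (nb : ι → ℝ)
    (hnb : ∀ i ∈ A', 0 ≤ nb i ∧ nb i ≤ 1) (w : Fin n → ℝ) (hw : ∀ k, 0 ≤ w k)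
    (L₀ : Finset (ι → ℝ)) (S : ℕ → Finset (Fin n)) (ρ : ℕ) (hS : ∀ t ≤ ρ, (S t).card ≤ 2 ^ t)
    (hτ : ∀ i ∈ A', ∑ k, w k * ⟪b k, x i⟫ ^ 2 ≤ 3)
    (hK : n ≤ 2 ^ (ρ + 1)) :
    ∃ ν₁ ν : ι → ℝ, (∀ i ∈ A', 0 ≤ ν₁ i ∧ ν₁ i ≤ 1) ∧ (∀ i ∈ A', 0 ≤ ν i ∧ ν i ≤ 1) ∧
      (fl A' ν).card ≤ 2 * L₀.card + 2 ∧
      (∀ a ∈ L₀, ∑ i ∈ A', a i * (ν i - nb i) = 0) ∧
      (∀ i, i ∉ fl A' ν₁ → ν i = ν₁ i) ∧
      (fl A' ν₁).card ≤ 2 * (L₀.card + n + n ^ 2) ∧
      (∀ v, ∑ i ∈ A', (ν₁ i - nb i) * ⟪x i, v⟫ ^ 2 = 0) ∧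
      (∑ i ∈ A', (ν₁ i - nb i) • x i = 0) ∧
      PB w S ρ (9 * (3 * (L₀.card : ℝ) + 6)) (fun k => ⟪b k, ∑ i ∈ A', (ν i - nb i) • x i⟫) := by
  classical
  let g : Fin n → ι → ℝ := fun k i => ⟪b k, x i⟫
  let L₁ : Finset (ι → ℝ) := (Finset.univ : Finset (Fin n)).image g
  let L₂ : Finset (ι → ℝ) := (Finset.univ : Finset (Fin n × Fin n)).image
    (fun p i => g p.1 i * g p.2 i)
  let L : Finset (ι → ℝ) := L₀ ∪ (L₁ ∪ L₂)
  have hL₁ : L₁.card ≤ n := by
    calc L₁.card ≤ (Finset.univ : Finset (Fin n)).card := Finset.card_image_le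
      _ = n := by simp
  have hL₂ : L₂.card ≤ n ^ 2 := by
    calc L₂.card ≤ (Finset.univ : Finset (Fin n × Fin n)).card := Finset.card_image_le
      _ = n ^ 2 := by simp [sq]
  have hL : L.card ≤ L₀.card + n + n ^ 2 := by
    have h1 := Finset.card_union_le L₀ (L₁ ∪ L₂)
    have h2 := Finset.card_union_le L₁ L₂
    change (L₀ ∪ (L₁ ∪ L₂)).card ≤ _
    omega
  obtain ⟨ν₁, h1, h2, h3, h4, _⟩ := stage (fun _ : Fin n => (0 : ℝ)) (fun _ => le_rfl) g A' L
    (2 * (L₀.card + n + n ^ 2)) (by omega) 0 nb hnb (by simp)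
  obtain ⟨ν, h5, h6, h7, h8, h9⟩ := schedule_walk2 w hw g A' L₀ ρ S hS hτ
    (by simpa using hK) ν₁ h1
  have hcomp : ∀ k, ∑ i ∈ A', (ν₁ i - nb i) * g k i = 0 := by
    intro k
    have := h4 (g k) (Finset.mem_union_right _ (Finset.mem_union_left _
      (Finset.mem_image_of_mem _ (Finset.mem_univ k))))
    rw [← this]
    exact Finset.sum_congr rfl (fun i _ => by ring)
  have hprod : ∀ k l, ∑ i ∈ A', (ν₁ i - nb i) * (g k i * g l i) = 0 := by
    intro k l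
    have := h4 (fun i => g k i * g l i) (Finset.mem_union_right _ (Finset.mem_union_right _
      (Finset.mem_image_of_mem (fun (p : Fin n × Fin n) i => g p.1 i * g p.2 i)
        (Finset.mem_univ (k, l)))))
    rw [← this]
    exact Finset.sum_congr rfl (fun i _ => by ring)
  have hcoord : ∀ (c : ι → ℝ) k, ⟪b k, ∑ i ∈ A', c i • x i⟫ = ∑ i ∈ A', c i * g k i := by
    intro c k
    rw [inner_sum]
    exact Finset.sum_congr rfl (fun i _ => by rw [inner_smul_right])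
  refine ⟨ν₁, ν, h1, h5, h7, ?_, h6, h3, ?_, ?_, ?_⟩
  · intro a ha
    have h10 := h8 a ha
    have h11 := h4 a (Finset.mem_union_left _ ha)
    have : ∑ i ∈ A', a i * (ν i - nb i) =
        ∑ i ∈ A', a i * (ν i - ν₁ i) + ∑ i ∈ A', a i * (ν₁ i - nb i) := by
      rw [← Finset.sum_add_distrib]
      exact Finset.sum_congr rfl (fun i _ => by ring)
    rw [this, h10, h11, add_zero]
  · intro v
    have h10 : ∀ i, ⟪x i, v⟫ ^ 2 = ∑ k, ∑ l, ⟪b k, v⟫ * ⟪b l, v⟫ * (g k i * g l i) := by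
      intro i
      have h11 : ⟪x i, v⟫ = ∑ k, g k i * ⟪b k, v⟫ := inner_eq_sum b (x i) v
      rw [sq, h11, Finset.sum_mul_sum]
      refine Finset.sum_congr rfl (fun k _ => Finset.sum_congr rfl (fun l _ => ?_))
      ring
    simp_rw [h10, Finset.mul_sum]
    rw [Finset.sum_comm]
    apply Finset.sum_eq_zero
    intro k _
    rw [Finset.sum_comm]
    apply Finset.sum_eq_zero
    intro l _
    have h12 := hprod k l
    calc _ = ⟪b k, v⟫ * ⟪b l, v⟫ * ∑ i ∈ A', (ν₁ i - nb i) * (g k i * g l i) := by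
          rw [Finset.mul_sum]
          exact Finset.sum_congr rfl (fun i _ => by ring)
      _ = 0 := by rw [h12, mul_zero]
  · have h10 : ‖∑ i ∈ A', (ν₁ i - nb i) • x i‖ ^ 2 = 0 := by
      rw [norm_sq_eq_sum b]
      apply Finset.sum_eq_zero
      intro k _
      rw [hcoord, hcomp]
      simp
    simpa using h10
  · have h10 : ∀ k, ⟪b k, ∑ i ∈ A', (ν i - nb i) • x i⟫ = ∑ i ∈ A', (ν i - ν₁ i) * g k i := by
      intro k
      rw [hcoord]
      have h11 := hcomp k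
      have : ∑ i ∈ A', (ν i - nb i) * g k i =
          ∑ i ∈ A', (ν i - ν₁ i) * g k i + ∑ i ∈ A', (ν₁ i - nb i) * g k i := by
        rw [← Finset.sum_add_distrib]
        exact Finset.sum_congr rfl (fun i _ => by ring)
      rw [this, h11, add_zero]
    intro a j ha0 hav hsupp
    simp only [h10]
    exact h9 a j ha0 hav hsupp

end Vale.Agent.Lib.P262.V
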