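import Vale.Agent.Lib.P262.V.NodeA

/-!
The split at a node without a heavy item.
-/

open scoped RealInnerProductSpace BigOperators
open Module

set_option linter.unusedSectionVars false

namespace Vale.Agent.Lib.P262.V

open Vale.Agent.Lib.P262.U

variable {E : Type*} [NormedAddCommGroup E] [InnerProductSpace ℝ E] [FiniteDimensional ℝ E]
variable {ι : Type*} [DecidableEq ι]
variable {n : ℕ} {μ : Fin n → ℝ}

/-- The split at a node without a heavy item. -/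
lemma L_level2 (x : ι → E) (A : Finset ι) (b : OrthonormalBasis (Fin n) ℝ E) (h y : E)
    (hnb : ∀ i, |⟪x i, h⟫| ≤ 1 / 4) (qq : ι → ℝ) (hqq0 : ∀ i ∈ A, 0 ≤ qq i)
    (hqq : ∀ i ∈ A, qq i ≤ (∑ j ∈ A, qq j) / 48) (w : Fin n → ℝ) (hw : ∀ k, 0 ≤ w k)
    (S : ℕ → Finset (Fin n)) (ρ : ℕ) (hS : ∀ t ≤ ρ, (S t).card ≤ 2 ^ t)
    (hτ : ∀ i ∈ A, ∑ k, w k * ⟪b k, x i⟫ ^ 2 ≤ 3)
    (hK : n ≤ 2 ^ (ρ + 1)) (hA : 34 ≤ A.card) :
    ∃ (I₁ : Finset ι) (e : E) (a : ι → ℝ) (F : Finset ι), I₁ ⊆ A ∧ I₁.card < A.card ∧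
      (A \ I₁).card < A.card ∧
      ∑ i ∈ I₁, x i = ∑ i ∈ A, nbv x h i • x i + e ∧ ⟪y, e⟫ ≤ 0 ∧
      PB w S ρ 654 (fun k => ⟪b k, e⟫) ∧
      (∀ k, (∀ i ∈ A, ⟪b k, x i⟫ = 0) → ⟪b k, e⟫ = 0) ∧
      (∀ v, ⟪rkS x I₁ v, v⟫ = (1 / 2) * ⟪rkS x A v, v⟫ + (-1) * ∑ i ∈ A, ⟪x i, h⟫ * ⟪x i, v⟫ ^ 2 +
        ∑ i ∈ F, a i * ⟪x i, v⟫ ^ 2) ∧
      (∀ v, ⟪rkS x (A \ I₁) v, v⟫ = (1 / 2) * ⟪rkS x A v, v⟫ + 1 * ∑ i ∈ A, ⟪x i, h⟫ * ⟪x i, v⟫ ^ 2 +
        ∑ i ∈ F, (- a i) * ⟪x i, v⟫ ^ 2) ∧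
      F ⊆ A ∧ F.card ≤ 2 * (3 + n + n ^ 2) ∧ (∀ i ∈ F, |a i| ≤ 1) ∧
      (∑ j ∈ A, qq j) / 12 ≤ ∑ i ∈ A \ I₁, qq i ∧ (∑ j ∈ A, qq j) / 12 ≤ ∑ i ∈ I₁, qq i := by
  classical
  set nb := nbv x h with hnbdef
  have hnb2 : ∀ i, 1 / 4 ≤ nb i ∧ nb i ≤ 3 / 4 := by
    intro i
    have := abs_le.mp (hnb i)
    simp only [hnbdef, nbv]
    constructor <;> linarith [this.1, this.2]
  set yf : ι → ℝ := fun i => ⟪y, x i⟫ with hyf
  set one : ι → ℝ := fun _ => 1 with hone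
  set L₀ : Finset (ι → ℝ) := {yf, one, qq} with hL₀
  have hL₀c : L₀.card ≤ 3 := Finset.card_le_three
  have hL₀c' : (L₀.card : ℝ) ≤ 3 := by exact_mod_cast hL₀c
  obtain ⟨ν₁, ν, hν₁, hν, hfl, hLe, hoff, hfl₁, hbalv, _, hQ⟩ := node_walk2 x A b nb
    (fun i _ => ⟨by linarith [(hnb2 i).1], by linarith [(hnb2 i).2]⟩) w hw L₀ S ρ hS hτ hK
  have hfl8 : (fl A ν).card ≤ 8 := by omega
  have hfl8' : ((fl A ν).card : ℝ) ≤ 8 := by exact_mod_cast hfl8
  -- the rounding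
  set fν := fl A ν with hfν
  set rd : ι → ℝ := fun i => if i ∈ fν then (if 0 ≤ yf i then 0 else 1) else ν i with hrd
  have hrd01 : ∀ i ∈ A, rd i = 0 ∨ rd i = 1 := by
    intro i hi
    simp only [hrd]
    split_ifs with h1 h2
    · exact Or.inl rfl
    · exact Or.inr rfl
    · exact cube_off hi (hν i hi) h1
  have hrdc : ∀ i ∈ A, 0 ≤ rd i ∧ rd i ≤ 1 := by
    intro i hi
    rcases hrd01 i hi with h1 | h1 <;> rw [h1] <;> norm_num
  have hrdoff : ∀ i, i ∉ fν → rd i = ν i := by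
    intro i hi
    simp only [hrd, if_neg hi]
  have hrdsub : ∀ (f : ι → ℝ), ∑ i ∈ A, (rd i - ν i) * f i = ∑ i ∈ fν, (rd i - ν i) * f i := by
    intro f
    symm
    apply Finset.sum_subset (Finset.filter_subset _ _)
    intro i _ hi
    rw [hrdoff i hi]
    simp
  have hrdabs : ∀ i ∈ A, |rd i - ν i| ≤ 1 := by
    intro i hi
    have h1 := hrdc i hi
    have h2 := hν i hi
    rw [abs_le]
    constructor <;> linarith [h1.1, h1.2, h2.1, h2.2]
  have hflA : ∀ i ∈ fν, i ∈ A := fun i hi => (mem_fl.mp hi).1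
  set I₁ := A.filter (fun i => rd i = 1) with hI₁
  have hI₁A : I₁ ⊆ A := Finset.filter_subset _ _
  have hχ : ∀ i ∈ A, rd i = if i ∈ I₁ then 1 else 0 := by
    intro i hi
    by_cases h1 : rd i = 1
    · have h2 : i ∈ I₁ := Finset.mem_filter.mpr ⟨hi, h1⟩
      rw [if_pos h2, h1]
    · have h2 : i ∉ I₁ := fun h3 => h1 (Finset.mem_filter.mp h3).2
      rw [if_neg h2]
      rcases hrd01 i hi with h3 | h3
      · exact h3
      · exact absurd h3 h1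
  have hχ' : ∀ i ∈ A, 1 - rd i = if i ∈ A \ I₁ then 1 else 0 := by
    intro i hi
    have h1 := hχ i hi
    by_cases h2 : i ∈ I₁
    · rw [if_pos h2] at h1
      rw [if_neg (fun h3 => (Finset.mem_sdiff.mp h3).2 h2), h1]
      norm_num
    · rw [if_neg h2] at h1
      rw [if_pos (Finset.mem_sdiff.mpr ⟨hi, h2⟩), h1]
      norm_num
  -- sum over the sets
  have hsumI : ∀ (f : ι → ℝ), ∑ i ∈ I₁, f i = ∑ i ∈ A, rd i * f i := by
    intro f
    have h2 : ∀ i ∈ A, rd i * f i = if i ∈ I₁ then f i else 0 := by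
      intro i hi
      rw [hχ i hi]
      split_ifs <;> simp
    rw [Finset.sum_congr rfl h2, Finset.sum_ite_mem, Finset.inter_eq_right.mpr hI₁A]
  have hsumI' : ∀ (f : ι → ℝ), ∑ i ∈ A \ I₁, f i = ∑ i ∈ A, (1 - rd i) * f i := by
    intro f
    have h2 : ∀ i ∈ A, (1 - rd i) * f i = if i ∈ A \ I₁ then f i else 0 := by
      intro i hi
      rw [hχ' i hi]
      split_ifs <;> simp
    rw [Finset.sum_congr rfl h2, Finset.sum_ite_mem,
      Finset.inter_eq_right.mpr (Finset.sdiff_subset)]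
  -- the exact functionals
  have hEx : ∀ f ∈ L₀, ∑ i ∈ A, (ν i - nb i) * f i = 0 := by
    intro f hf
    rw [← hLe f hf]
    exact Finset.sum_congr rfl (fun i _ => by ring)
  have hExy := hEx yf (by simp [hL₀])
  have hExo := hEx one (by simp [hL₀])
  have hExq := hEx qq (by simp [hL₀])
  have hdec : ∀ (f : ι → ℝ), ∑ i ∈ A, rd i * f i =
      ∑ i ∈ A, nb i * f i + ∑ i ∈ A, (ν i - nb i) * f i + ∑ i ∈ fν, (rd i - ν i) * f i := by
    intro f
    rw [← hrdsub, ← Finset.sum_add_distrib, ← Finset.sum_add_distrib]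
    exact Finset.sum_congr rfl (fun i _ => by ring)
  have hfsmall : ∀ (f : ι → ℝ), (∀ i ∈ A, 0 ≤ f i) → ∀ (t : ℝ), 0 ≤ t → (∀ i ∈ A, f i ≤ t) →
      |∑ i ∈ fν, (rd i - ν i) * f i| ≤ 8 * t := by
    intro f hf0 t ht0 ht
    calc _ ≤ ∑ i ∈ fν, |(rd i - ν i) * f i| := Finset.abs_sum_le_sum_abs _ _
      _ ≤ ∑ i ∈ fν, t := by
          refine Finset.sum_le_sum (fun i hi => ?_)
          have hiA := hflA i hi
          rw [abs_mul, abs_of_nonneg (hf0 i hiA)]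
          calc _ ≤ 1 * f i := mul_le_mul_of_nonneg_right (hrdabs i hiA) (hf0 i hiA)
            _ = f i := one_mul _
            _ ≤ t := ht i hiA
      _ = (fν.card : ℝ) * t := by simp
      _ ≤ 8 * t := mul_le_mul_of_nonneg_right hfl8' ht0
  -- the error vector
  set e : E := ∑ i ∈ A, (rd i - nb i) • x i with he
  have hek : ∀ k, ⟪b k, e⟫ = ∑ i ∈ A, (rd i - nb i) * ⟪b k, x i⟫ := by
    intro k
    rw [he, inner_sum]
    exact Finset.sum_congr rfl (fun i _ => by rw [inner_smul_right])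
  have hsum : ∑ i ∈ I₁, x i = ∑ i ∈ A, nb i • x i + e := by
    have h2 : ∀ i ∈ A, rd i • x i = if i ∈ I₁ then x i else 0 := by
      intro i hi
      rw [hχ i hi]
      split_ifs <;> simp
    have h3 : ∑ i ∈ I₁, x i = ∑ i ∈ A, rd i • x i := by
      rw [Finset.sum_congr rfl h2, Finset.sum_ite_mem, Finset.inter_eq_right.mpr hI₁A]
    rw [h3, he, ← Finset.sum_add_distrib]
    refine Finset.sum_congr rfl (fun i _ => ?_)
    rw [← add_smul]
    congr 1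
    ring
  have hye : ⟪y, e⟫ ≤ 0 := by
    have h2 : ⟪y, e⟫ = ∑ i ∈ A, (rd i - nb i) * yf i := by
      rw [he, inner_sum]
      exact Finset.sum_congr rfl (fun i _ => by rw [inner_smul_right])
    have h3 : ∑ i ∈ A, (rd i - nb i) * yf i =
        ∑ i ∈ A, (ν i - nb i) * yf i + ∑ i ∈ fν, (rd i - ν i) * yf i := by
      rw [← hrdsub, ← Finset.sum_add_distrib]
      exact Finset.sum_congr rfl (fun i _ => by ring)
    rw [h2, h3, hExy, zero_add]
    apply Finset.sum_nonpos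
    intro i hi
    have hiA := hflA i hi
    have h4 := hν i hiA
    simp only [hrd, if_pos hi]
    split_ifs with h5
    · have : (0 - ν i) * yf i = - (ν i * yf i) := by ring
      rw [this]
      have := mul_nonneg h4.1 h5
      linarith
    · push Not at h5
      exact mul_nonpos_of_nonneg_of_nonpos (by linarith [h4.2]) h5.le
  have hQe : PB w S ρ 654 (fun k => ⟪b k, e⟫) := by
    set e₂ : E := ∑ i ∈ A, (ν i - nb i) • x i with he₂
    have hek2 : ∀ k, ⟪b k, e₂⟫ = ∑ i ∈ A, (ν i - nb i) * ⟪b k, x i⟫ := by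
      intro k
      rw [he₂, inner_sum]
      exact Finset.sum_congr rfl (fun i _ => by rw [inner_smul_right])
    have h2 : ∀ k, ⟪b k, e⟫ = ⟪b k, e₂⟫ + ∑ i ∈ fν, (rd i - ν i) * ⟪b k, x i⟫ := by
      intro k
      rw [hek, hek2, ← hrdsub, ← Finset.sum_add_distrib]
      exact Finset.sum_congr rfl (fun i _ => by ring)
    have h3 : ∀ k, (∑ i ∈ fν, (rd i - ν i) * ⟪b k, x i⟫) ^ 2 ≤ 8 * ∑ i ∈ fν, ⟪b k, x i⟫ ^ 2 := by
      intro k
      calc _ ≤ (fν.card : ℝ) * ∑ i ∈ fν, ((rd i - ν i) * ⟪b k, x i⟫) ^ 2 :=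
            sq_sum_le_card_mul_sum_sq
        _ ≤ (fν.card : ℝ) * ∑ i ∈ fν, ⟪b k, x i⟫ ^ 2 := by
            apply mul_le_mul_of_nonneg_left _ (Nat.cast_nonneg _)
            refine Finset.sum_le_sum (fun i hi => ?_)
            have h4 := hrdabs i (hflA i hi)
            have h5 : (rd i - ν i) ^ 2 ≤ 1 := by
              rw [← sq_abs]
              exact pow_le_one₀ (abs_nonneg _) h4
            rw [mul_pow]
            exact (mul_le_mul_of_nonneg_right h5 (sq_nonneg _)).trans (le_of_eq (one_mul _))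
        _ ≤ _ := mul_le_mul_of_nonneg_right hfl8' (Finset.sum_nonneg (fun _ _ => sq_nonneg _))
    intro a j ha0 hav hsupp
    have h4 : ∑ k, a k * (∑ i ∈ fν, (rd i - ν i) * ⟪b k, x i⟫) ^ 2 ≤ 192 := by
      calc _ ≤ ∑ k, w k * (8 * ∑ i ∈ fν, ⟪b k, x i⟫ ^ 2) :=
            Finset.sum_le_sum (fun k _ => mul_le_mul (hav k) (h3 k) (sq_nonneg _) (hw k))
        _ = 8 * ∑ i ∈ fν, ∑ k, w k * ⟪b k, x i⟫ ^ 2 := by
            rw [Finset.sum_comm (s := fν), Finset.mul_sum]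
            refine Finset.sum_congr rfl (fun k _ => ?_)
            rw [Finset.mul_sum, Finset.mul_sum, Finset.mul_sum]
            exact Finset.sum_congr rfl (fun i _ => by ring)
        _ ≤ 8 * ∑ i ∈ fν, (3 : ℝ) := by
            apply mul_le_mul_of_nonneg_left _ (by norm_num)
            exact Finset.sum_le_sum (fun i hi => hτ i (hflA i hi))
        _ = 8 * ((fν.card : ℝ) * 3) := by simp
        _ ≤ 8 * (8 * 3) := by
            apply mul_le_mul_of_nonneg_left _ (by norm_num)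
            exact mul_le_mul_of_nonneg_right hfl8' (by norm_num)
        _ = 192 := by norm_num
    have h5 : ∑ k, a k * ⟪b k, e⟫ ^ 2 ≤ 2 * ∑ k, a k * ⟪b k, e₂⟫ ^ 2 +
        2 * ∑ k, a k * (∑ i ∈ fν, (rd i - ν i) * ⟪b k, x i⟫) ^ 2 := by
      rw [Finset.mul_sum, Finset.mul_sum, ← Finset.sum_add_distrib]
      refine Finset.sum_le_sum (fun k _ => ?_)
      rw [h2]
      have h6 := sq_nonneg (⟪b k, e₂⟫ - ∑ i ∈ fν, (rd i - ν i) * ⟪b k, x i⟫)
      have h7 := mul_le_mul_of_nonneg_left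
        (show (⟪b k, e₂⟫ + ∑ i ∈ fν, (rd i - ν i) * ⟪b k, x i⟫) ^ 2 ≤
          2 * ⟪b k, e₂⟫ ^ 2 + 2 * (∑ i ∈ fν, (rd i - ν i) * ⟪b k, x i⟫) ^ 2 by nlinarith) (ha0 k)
      linarith
    have h6 : ∑ k, a k * ⟪b k, e₂⟫ ^ 2 ≤ (9 * (3 * (L₀.card : ℝ) + 6)) * 2 ^ j :=
      hQ a j ha0 hav hsupp
    have h7 : (1 : ℝ) ≤ 2 ^ j := one_le_pow₀ (by norm_num)
    have h8 : (9 * (3 * (L₀.card : ℝ) + 6)) * 2 ^ j ≤ 135 * 2 ^ j := by
      apply mul_le_mul_of_nonneg_right _ (by positivity)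
      linarith
    simp only
    linarith
  have hzero : ∀ k, (∀ i ∈ A, ⟪b k, x i⟫ = 0) → ⟪b k, e⟫ = 0 := by
    intro k hk
    rw [hek]
    apply Finset.sum_eq_zero
    intro i hi
    rw [hk i hi, mul_zero]
  -- balance
  set F := fl A ν₁ with hF
  have hFA : F ⊆ A := Finset.filter_subset _ _
  have hoffF : ∀ i ∈ A, i ∉ F → rd i = ν₁ i := by
    intro i hi hiF
    have h1 := hoff i hiF
    have h2 := cube_off hi (hν₁ i hi) hiF
    have h3 : i ∉ fν := by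
      intro h4
      have h5 := (mem_fl.mp h4).2
      rw [h1] at h5
      rcases h2 with h6 | h6 <;> rw [h6] at h5 <;> linarith [h5.1, h5.2]
    rw [hrdoff i h3, h1]
  have hbal1 : ∀ v, ⟪rkS x I₁ v, v⟫ = (1 / 2) * ⟪rkS x A v, v⟫ +
      (-1) * ∑ i ∈ A, ⟪x i, h⟫ * ⟪x i, v⟫ ^ 2 + ∑ i ∈ F, (rd i - ν₁ i) * ⟪x i, v⟫ ^ 2 := by
    intro v
    rw [bal_gen x hI₁A rd ν₁ nb hFA hχ hbalv hoffF v, hnbdef, nbv_sum]
  have hbal0 : ∀ v, ⟪rkS x (A \ I₁) v, v⟫ = (1 / 2) * ⟪rkS x A v, v⟫ +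
      1 * ∑ i ∈ A, ⟪x i, h⟫ * ⟪x i, v⟫ ^ 2 + ∑ i ∈ F, (-(rd i - ν₁ i)) * ⟪x i, v⟫ ^ 2 := by
    intro v
    have h1 := bal_gen x (Finset.sdiff_subset : A \ I₁ ⊆ A) (fun i => 1 - rd i) (fun i => 1 - ν₁ i)
      (fun i => 1 - nb i) hFA hχ' (fun u => by
        have h2 := hbalv u
        have h3 : ∑ i ∈ A, ((1 - ν₁ i) - (1 - nb i)) * ⟪x i, u⟫ ^ 2 =
            - ∑ i ∈ A, (ν₁ i - nb i) * ⟪x i, u⟫ ^ 2 := by
          rw [← Finset.sum_neg_distrib]
          exact Finset.sum_congr rfl (fun i _ => by ring)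
        rw [h3, h2, neg_zero]) (fun i hi hiF => by
          rw [hoffF i hi hiF]) v
    rw [h1, hnbdef, nbv_sum']
    congr 1
    exact Finset.sum_congr rfl (fun i _ => by ring)
  -- sizes
  have hone1 : ∀ i ∈ A, one i ≤ 1 := fun _ _ => le_refl _
  have hfo := abs_le.mp (hfsmall one (fun _ _ => zero_le_one) 1 zero_le_one hone1)
  have hnbone : (A.card : ℝ) / 4 ≤ ∑ i ∈ A, nb i * one i := by
    have h2 : ∑ i ∈ A, (1 / 4 : ℝ) ≤ ∑ i ∈ A, nb i * one i := by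
      refine Finset.sum_le_sum (fun i _ => ?_)
      simp only [hone, mul_one]
      exact (hnb2 i).1
    simp only [Finset.sum_const, nsmul_eq_mul] at h2
    linarith
  have hnbone' : (A.card : ℝ) / 4 ≤ ∑ i ∈ A, (1 - nb i) * one i := by
    have h2 : ∑ i ∈ A, (1 / 4 : ℝ) ≤ ∑ i ∈ A, (1 - nb i) * one i := by
      refine Finset.sum_le_sum (fun i _ => ?_)
      simp only [hone, mul_one]
      linarith [(hnb2 i).2]
    simp only [Finset.sum_const, nsmul_eq_mul] at h2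
    linarith
  have hAr : (34 : ℝ) ≤ (A.card : ℝ) := by exact_mod_cast hA
  have hcard1 : (A.card : ℝ) / 4 - 8 ≤ (I₁.card : ℝ) := by
    have h2 : (I₁.card : ℝ) = ∑ i ∈ I₁, one i := by simp [hone]
    rw [h2, hsumI, hdec, hExo]
    linarith [hfo.1]
  have hcard0 : (A.card : ℝ) / 4 - 8 ≤ ((A \ I₁).card : ℝ) := by
    have h2 : ((A \ I₁).card : ℝ) = ∑ i ∈ A \ I₁, one i := by simp [hone]
    have h3 : ∑ i ∈ A, (1 - rd i) * one i = ∑ i ∈ A, (1 - nb i) * one i -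
        (∑ i ∈ A, (ν i - nb i) * one i + ∑ i ∈ fν, (rd i - ν i) * one i) := by
      rw [← hrdsub, ← Finset.sum_add_distrib, ← Finset.sum_sub_distrib]
      exact Finset.sum_congr rfl (fun i _ => by ring)
    rw [h2, hsumI', h3, hExo]
    linarith [hfo.2]
  have hc1pos : 0 < I₁.card := by
    have : (0 : ℝ) < (I₁.card : ℝ) := by linarith
    exact_mod_cast this
  have hc0pos : 0 < (A \ I₁).card := by
    have : (0 : ℝ) < ((A \ I₁).card : ℝ) := by linarith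
    exact_mod_cast this
  have hcsum : (A \ I₁).card + I₁.card = A.card := Finset.card_sdiff_add_card_eq_card hI₁A
  -- drops
  set Pool := ∑ j ∈ A, qq j with hPool
  have hPool0 : 0 ≤ Pool := Finset.sum_nonneg hqq0
  have hfq := abs_le.mp (hfsmall qq hqq0 (Pool / 48) (by positivity) hqq)
  have hnbq : Pool / 4 ≤ ∑ i ∈ A, nb i * qq i := by
    have h2 : ∑ i ∈ A, (1 / 4 : ℝ) * qq i ≤ ∑ i ∈ A, nb i * qq i :=
      Finset.sum_le_sum (fun i hi => mul_le_mul_of_nonneg_right (hnb2 i).1 (hqq0 i hi))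
    rw [← Finset.mul_sum] at h2
    linarith
  have hnbq' : Pool / 4 ≤ ∑ i ∈ A, (1 - nb i) * qq i := by
    have h2 : ∑ i ∈ A, (1 / 4 : ℝ) * qq i ≤ ∑ i ∈ A, (1 - nb i) * qq i :=
      Finset.sum_le_sum (fun i hi => mul_le_mul_of_nonneg_right
        (by linarith [(hnb2 i).2]) (hqq0 i hi))
    rw [← Finset.mul_sum] at h2
    linarith
  have hd1 : Pool / 12 ≤ ∑ i ∈ I₁, qq i := by
    rw [hsumI, hdec, hExq]
    linarith [hfq.1]
  have hd0 : Pool / 12 ≤ ∑ i ∈ A \ I₁, qq i := by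
    have h3 : ∑ i ∈ A, (1 - rd i) * qq i = ∑ i ∈ A, (1 - nb i) * qq i -
        (∑ i ∈ A, (ν i - nb i) * qq i + ∑ i ∈ fν, (rd i - ν i) * qq i) := by
      rw [← hrdsub, ← Finset.sum_add_distrib, ← Finset.sum_sub_distrib]
      exact Finset.sum_congr rfl (fun i _ => by ring)
    rw [hsumI', h3, hExq]
    linarith [hfq.2]
  refine ⟨I₁, e, fun i => rd i - ν₁ i, F, hI₁A, by omega, by omega, hsum, hye, hQe, hzero, hbal1,
    hbal0, hFA, ?_, ?_, hd0, hd1⟩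
  · have h3 : F.card ≤ 2 * (L₀.card + n + n ^ 2) := hfl₁
    have h4 : 2 * (L₀.card + n + n ^ 2) ≤ 2 * (3 + n + n ^ 2) := by omega
    exact h3.trans h4
  · intro i hi
    have hiA := hFA hi
    have h1 := hrdc i hiA
    have h2 := hν₁ i hiA
    simp only
    rw [abs_le]
    constructor <;> linarith [h1.1, h1.2, h2.1, h2.2]

end Vale.Agent.Lib.P262.V
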