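import Vale.Agent.Lib.P262.V.NodeH

/-!
The output of a node: classes of eigenvectors, and existence of the split.
-/

open scoped RealInnerProductSpace BigOperators
open Module

set_option linter.unusedSectionVars false

namespace Vale.Agent.Lib.P262.V

open Vale.Agent.Lib.P262.U

variable {E : Type*} [NormedAddCommGroup E] [InnerProductSpace ℝ E] [FiniteDimensional ℝ E]
variable {ι : Type*} [DecidableEq ι]

/-- Thick eigenvalues. -/
noncomputable def thickSet (P : Par) (μ : Fin P.n → ℝ) : Finset (Fin P.n) :=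
  Finset.univ.filter (fun k => P.E₂ ≤ μ k)

/-- Base scale. -/
noncomputable def κs (s : ℕ) : ℝ := (1 / 4) ^ s

/-- The scale at which items are counted. -/
noncomputable def Lam (s : ℕ) : ℝ := 8192 * κs s

/-- The drop of the counting potential at a committed item. -/
noncomputable def cp : ℝ := (1 / 2) ^ 25

lemma κs_pos (s : ℕ) : 0 < κs s := by
  unfold κs
  positivity

lemma κs_le (s : ℕ) : κs s ≤ 1 := by
  unfold κs
  exact pow_le_one₀ (by norm_num) (by norm_num)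

lemma Lam_pos (s : ℕ) : 0 < Lam s := by
  unfold Lam
  have := κs_pos s
  positivity

lemma cp_pos : 0 < cp := by
  unfold cp
  positivity

/-- What a node produces. -/
structure NodeOut (P : Par) (x : ι → E) (A : Finset ι) (b : OrthonormalBasis (Fin P.n) ℝ E)
    (μ : Fin P.n → ℝ) (h y : E) where
  ε : ℝ
  s : ℕ
  Ac : Finset (Fin P.n)
  I₁ : Finset ι
  I₀ : Finset ι
  Fc : Finset ι
  ν : ι → ℝ
  e : E
  a₁ : ι → ℝ
  a₀ : ι → ℝ
  F₁ : Finset ι
  F₀ : Finset ι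
  hε0 : 0 ≤ ε
  hε1 : ε ≤ 1
  hsoft : ∀ i ∈ A, ‖sproj b (thickSet P μ)ᶜ (x i)‖ ^ 2 ≤ ε
  hAc : Disjoint (thickSet P μ) Ac
  hεs : 0 < ε → ε ≤ (1 / 4) ^ s
  hr1 : 0 < ε → 1 ≤ (Ac.card : ℝ)
  hI₁ : I₁ ⊆ A
  hI₀ : I₀ ⊆ A
  hFc : Fc ⊆ A
  hd₁ : Disjoint I₁ I₀
  hd₂ : Disjoint I₁ Fc
  hd₃ : Disjoint I₀ Fc
  hU : I₁ ∪ Fc ∪ I₀ = A
  hc₁ : I₁.card < A.card
  hc₀ : I₀.card < A.card
  hFcC : (Fc.card : ℝ) ≤ C₃
  hνFc : ∀ i ∈ Fc, 0 ≤ ν i ∧ ν i ≤ 1
  hsum : ∑ i ∈ I₁, x i = ∑ i ∈ A, nbv x h i • x i + e - ∑ i ∈ Fc, ν i • x i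
  hye : ⟪y, e⟫ ≤ 0
  hth : ∀ κ : ℝ, 0 < κ → ∑ k ∈ thickSet P μ, κ / (μ k + κ) * ⟪b k, e⟫ ^ 2 ≤
    P.B * tauS μ (thickSet P μ) κ
  hso : ∑ k ∈ (thickSet P μ)ᶜ, ⟪b k, e⟫ ^ 2 ≤ 2 * P.B * (ε * (Ac.card : ℝ))
  hen : ‖e‖ ^ 2 ≤ 3 * (P.n : ℝ) * P.B
  hbal₁ : ∀ v, ⟪rkS x I₁ v, v⟫ = (1 / 2) * ⟪rkS x A v, v⟫ +
    (-1) * ∑ i ∈ A, ⟪x i, h⟫ * ⟪x i, v⟫ ^ 2 + ∑ i ∈ F₁, a₁ i * ⟪x i, v⟫ ^ 2
  hbal₀ : ∀ v, ⟪rkS x I₀ v, v⟫ = (1 / 2) * ⟪rkS x A v, v⟫ +
    1 * ∑ i ∈ A, ⟪x i, h⟫ * ⟪x i, v⟫ ^ 2 + ∑ i ∈ F₀, a₀ i * ⟪x i, v⟫ ^ 2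
  hF₁ : F₁ ⊆ A
  hF₀ : F₀ ⊆ A
  hF₁c : F₁.card ≤ P.D
  hF₀c : F₀.card ≤ P.D
  ha₁ : ∀ i ∈ F₁, |a₁ i| ≤ 1
  ha₀ : ∀ i ∈ F₀, |a₀ i| ≤ 1
  hdrop₁ : 0 < ε → (Ac.card : ℝ) / Cw ≤ P.Lev (rkS x A) s - P.Lev (rkS x I₁) s
  hdrop₀ : 0 < ε → (Ac.card : ℝ) / Cw ≤ P.Lev (rkS x A) s - P.Lev (rkS x I₀) s
  hheavy : Fc = ∅ ∨ (0 < ε ∧ (∀ k, k ∉ thickSet P μ → k ∉ Ac → μ k ≤ ε * P.η ^ 2 / 4) ∧
    (∀ v, (∀ k, k ∉ Ac → ⟪b k, v⟫ = 0) → ∑ i ∈ F₁, a₁ i * ⟪x i, v⟫ ^ 2 ≤ 0) ∧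
    (∀ v, (∀ k, k ∉ Ac → ⟪b k, v⟫ = 0) → ∑ i ∈ F₀, a₀ i * ⟪x i, v⟫ ^ 2 ≤ 0) ∧
    cp ≤ psi (rkS x A) (Lam s) - psi (rkS x I₁) (Lam s) ∧
    cp ≤ psi (rkS x A) (Lam s) - psi (rkS x I₀) (Lam s))

lemma PB_mono {K : Type*} [Fintype K] {v : K → ℝ} {S : ℕ → Finset K} {T : ℕ} {C C' : ℝ} {e : K → ℝ}
    (h : C ≤ C') (hP : PB v S T C e) : PB v S T C' e := by
  intro a j h1 h2 h3
  refine (hP a j h1 h2 h3).trans ?_
  exact mul_le_mul_of_nonneg_right h (by positivity)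

/-- The pool at a node is at least a sixth of the active rank. -/
lemma pool_ge (P : Par) (x : ι → E) (A : Finset ι) {b : OrthonormalBasis (Fin P.n) ℝ E}
    {μ : Fin P.n → ℝ} (hb : ∀ k, (rkS x A) (b k) = μ k • b k) (hμ : ∀ k, 0 ≤ μ k) (s : ℕ)
    (Ac : Finset (Fin P.n)) (hAc : ∀ k ∈ Ac, P.κm s ≤ μ k ∧ μ k < P.E₂) :
    (Ac.card : ℝ) / 6 ≤ ∑ i ∈ A, qt (rkS x A) (P.κm s) (2 * P.E₂) (x i) := by
  have hκ := Par.κm_pos (P := P) s
  have hE₂ := Par.E₂_pos (P := P)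
  have hκle : P.κm s ≤ 2 * P.E₂ := by
    have h1 : P.κm s ≤ 1 := by
      unfold Par.κm
      exact pow_le_one₀ (by norm_num) (by norm_num)
    have h2 : (1 : ℝ) ≤ P.g := Par.one_le_g
    have h3 : P.E₂ = 32 * P.g := rfl
    linarith
  rw [pool_eq x A hb hμ hκ (by positivity)]
  have hnn : ∀ k, 0 ≤ μ k / (μ k + P.κm s) - μ k / (μ k + 2 * P.E₂) := by
    intro k
    have h1 := hμ k
    have h2 : μ k / (μ k + 2 * P.E₂) ≤ μ k / (μ k + P.κm s) := by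
      apply div_le_div_of_nonneg_left h1 (by positivity)
      linarith
    linarith
  have h1 : ∑ k ∈ Ac, (1 / 6 : ℝ) ≤ ∑ k ∈ Ac, (μ k / (μ k + P.κm s) - μ k / (μ k + 2 * P.E₂)) := by
    refine Finset.sum_le_sum (fun k hk => ?_)
    obtain ⟨h2, h3⟩ := hAc k hk
    have h4 : 0 < μ k := lt_of_lt_of_le hκ h2
    have h5 : (1 / 2 : ℝ) ≤ μ k / (μ k + P.κm s) := by
      rw [le_div_iff₀ (by positivity)]
      linarith
    have h6 : μ k / (μ k + 2 * P.E₂) ≤ (1 / 3 : ℝ) := by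
      rw [div_le_iff₀ (by positivity)]
      linarith
    linarith
  have h2 : ∑ k ∈ Ac, (μ k / (μ k + P.κm s) - μ k / (μ k + 2 * P.E₂)) ≤
      ∑ k, (μ k / (μ k + P.κm s) - μ k / (μ k + 2 * P.E₂)) :=
    Finset.sum_le_sum_of_subset_of_nonneg (Finset.subset_univ _) (fun k _ _ => hnn k)
  simp only [Finset.sum_const, nsmul_eq_mul] at h1
  linarith

/-- The drop of the level at a scale in terms of the measure of removed items. -/
lemma lev_drop (P : Par) (x : ι → E) {A I : Finset ι} (hI : I ⊆ A) (s : ℕ) :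
    ∑ i ∈ A \ I, qt (rkS x A) (P.κm s) (2 * P.E₂) (x i) ≤
      P.Lev (rkS x A) s - P.Lev (rkS x I) s := by
  have := Gs_drop x hI (Par.κm_pos (P := P) s) (P.J s)
  rw [Par.κm_top] at this
  exact this

lemma qq_nonneg (P : Par) (x : ι → E) (A : Finset ι) (s : ℕ) (i : ι) :
    0 ≤ qt (rkS x A) (P.κm s) (2 * P.E₂) (x i) := by
  have hκ := Par.κm_pos (P := P) s
  have hE₂ := Par.E₂_pos (P := P)
  have hκle : P.κm s ≤ 2 * P.E₂ := by
    have h1 : P.κm s ≤ 1 := by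
      unfold Par.κm
      exact pow_le_one₀ (by norm_num) (by norm_num)
    have h2 : (1 : ℝ) ≤ P.g := Par.one_le_g
    have h3 : P.E₂ = 32 * P.g := rfl
    linarith
  exact qt_nonneg (rkS_posOp x A) hκ hκle _

/-- `κm` is below the dead threshold. -/
lemma κm_le (P : Par) (hP : P.Adm) {ε : ℝ} {s : ℕ} (hε : (1 / 4 : ℝ) ^ (s + 1) < ε) :
    P.κm s ≤ ε * P.η ^ 2 / 4 := by
  have hn : (1 : ℝ) ≤ (P.n : ℝ) := by exact_mod_cast hP.hn
  have hη : P.η ^ 2 = 1 / (P.n : ℝ) ^ 6 := by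
    unfold Par.η
    rw [div_pow, one_pow, ← pow_mul]
  have h1 : (1 / 2 : ℝ) ^ (6 * P.ρ) ≤ 1 / (P.n : ℝ) ^ 6 := by
    have h2 : ((P.n : ℝ)) ≤ 2 ^ P.ρ := by exact_mod_cast hP.hρ1
    have h3 : (P.n : ℝ) ^ 6 ≤ (2 ^ P.ρ) ^ 6 := pow_le_pow_left₀ (by positivity) h2 6
    have h4 : (1 / 2 : ℝ) ^ (6 * P.ρ) = 1 / (2 ^ P.ρ) ^ 6 := by
      rw [one_div, inv_pow, ← pow_mul, mul_comm P.ρ 6, one_div]
    rw [h4]
    apply one_div_le_one_div_of_le (by positivity) h3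
  have h5 : P.κm s = (1 / 4 : ℝ) ^ (s + 1) * (1 / 2) ^ (6 * P.ρ) / 4 := by
    unfold Par.κm
    have h6 : (1 / 4 : ℝ) ^ (s + 1) = (1 / 2) ^ (2 * s + 2) := by
      rw [show (1 / 4 : ℝ) = (1 / 2) ^ 2 by norm_num, ← pow_mul]
      congr 1
    rw [h6, show 2 * s + 4 + 6 * P.ρ = (2 * s + 2) + 6 * P.ρ + 2 by ring, pow_add, pow_add]
    norm_num
    ring
  rw [h5, hη]
  have h7 : (0 : ℝ) ≤ (1 / 2) ^ (6 * P.ρ) := by positivity
  have h8 : (0 : ℝ) ≤ (1 / 4) ^ (s + 1) := by positivity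
  have h9 : (1 / 4 : ℝ) ^ (s + 1) * (1 / 2) ^ (6 * P.ρ) ≤ ε * (1 / (P.n : ℝ) ^ 6) :=
    mul_le_mul hε.le h1 h7 (by linarith)
  linarith

/-- The pool at the scale of the largest soft part. -/
lemma pool_new_ge (P : Par) (x : ι → E) (A : Finset ι) {b : OrthonormalBasis (Fin P.n) ℝ E}
    {μ : Fin P.n → ℝ} (hb : ∀ k, (rkS x A) (b k) = μ k • b k) (hμ : ∀ k, 0 ≤ μ k) {κ ε : ℝ}
    (hκ : 0 < κ) (hκ1 : κ ≤ 1) (hE : 1 ≤ P.E₂) (hεκ : ε ≤ κ) (hεk : κ < 4 * ε) {i₁ : ι} (hi₁ : i₁ ∈ A)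
    (hmass : ∑ k ∈ (thickSet P μ)ᶜ, ⟪b k, x i₁⟫ ^ 2 = ε) :
    1 / 24 ≤ ∑ i ∈ A, qt (rkS x A) κ (2 * P.E₂) (x i) := by
  set Th := thickSet P μ with hTh
  have hE₂ : 0 < P.E₂ := by linarith
  rw [pool_eq x A hb hμ hκ (by positivity)]
  have hnn : ∀ k, 0 ≤ μ k / (μ k + κ) - μ k / (μ k + 2 * P.E₂) := by
    intro k
    have h1 := hμ k
    have h2 : μ k / (μ k + 2 * P.E₂) ≤ μ k / (μ k + κ) := by
      apply div_le_div_of_nonneg_left h1 (by positivity)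
      linarith
    linarith
  have hcoord : ∀ k, ⟪b k, x i₁⟫ ^ 2 ≤ μ k := by
    intro k
    rw [← sum_coord_sq x A hb k]
    exact Finset.single_le_sum (f := fun j => ⟪b k, x j⟫ ^ 2) (fun _ _ => sq_nonneg _) hi₁
  have hmassk : ∀ k ∈ Thᶜ, ⟪b k, x i₁⟫ ^ 2 ≤ ε := by
    intro k hk
    rw [← hmass]
    exact Finset.single_le_sum (f := fun l => ⟪b l, x i₁⟫ ^ 2) (fun _ _ => sq_nonneg _) hk
  have h1 : ∀ k ∈ Thᶜ, ⟪b k, x i₁⟫ ^ 2 / (6 * κ) ≤ μ k / (μ k + κ) - μ k / (μ k + 2 * P.E₂) := by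
    intro k hk
    have hk' : k ∉ Th := by simpa using hk
    have hμE : μ k < P.E₂ := by
      by_contra hcon
      push Not at hcon
      exact hk' (Finset.mem_filter.mpr ⟨Finset.mem_univ _, hcon⟩)
    have hμ0 := hμ k
    set c2 := ⟪b k, x i₁⟫ ^ 2 with hc2
    have hc20 : 0 ≤ c2 := sq_nonneg _
    have hc2μ : c2 ≤ μ k := hcoord k
    have hc2κ : c2 ≤ κ := (hmassk k hk).trans hεκ
    -- the difference is a third of the first term
    have h2 : (1 / 3) * (μ k / (μ k + κ)) ≤ μ k / (μ k + κ) - μ k / (μ k + 2 * P.E₂) := by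
      have h3 : μ k / (μ k + 2 * P.E₂) ≤ (2 / 3) * (μ k / (μ k + κ)) := by
        have h4 : (2 / 3) * (μ k / (μ k + κ)) = μ k / ((3 / 2) * (μ k + κ)) := by
          field_simp
        rw [h4]
        apply div_le_div_of_nonneg_left hμ0 (by positivity)
        nlinarith
      linarith
    have h5 : c2 / (2 * κ) ≤ μ k / (μ k + κ) := by
      rw [div_le_div_iff₀ (by positivity) (by positivity)]
      nlinarith [mul_nonneg hc20 hμ0, mul_nonneg (sub_nonneg.mpr hc2μ) hκ.le,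
        mul_nonneg (sub_nonneg.mpr hc2κ) hμ0]
    have h6 : c2 / (6 * κ) = (1 / 3) * (c2 / (2 * κ)) := by
      field_simp
      ring
    rw [h6]
    linarith
  have h2 : ∑ k ∈ Thᶜ, ⟪b k, x i₁⟫ ^ 2 / (6 * κ) ≤
      ∑ k, (μ k / (μ k + κ) - μ k / (μ k + 2 * P.E₂)) :=
    (Finset.sum_le_sum h1).trans
      (Finset.sum_le_sum_of_subset_of_nonneg (Finset.subset_univ _) (fun k _ _ => hnn k))
  rw [← Finset.sum_div, hmass] at h2
  refine le_trans ?_ h2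
  rw [div_le_div_iff₀ (by norm_num) (by positivity)]
  linarith

/-- An item of large measure at the scale of the largest soft part has a definite effect on the
trace potential. -/
lemma heavy_psi (P : Par) (x : ι → E) {A I : Finset ι} (hI : I ⊆ A)
    {b : OrthonormalBasis (Fin P.n) ℝ E} {μ : Fin P.n → ℝ}
    (hb : ∀ k, (rkS x A) (b k) = μ k • b k) (hμ : ∀ k, 0 ≤ μ k) {i₀ : ι} (hi₀ : i₀ ∈ A)
    (hi₀I : i₀ ∉ I) (hxn : ‖x i₀‖ ≤ 1) {κ : ℝ} (hκ : 0 < κ) (hE : 8192 ≤ P.E₂)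
    (hsoft : ‖sproj b (thickSet P μ)ᶜ (x i₀)‖ ^ 2 ≤ κ)
    (hq : 1 / 1152 ≤ qt (rkS x A) κ (2 * P.E₂) (x i₀)) :
    cp ≤ psi (rkS x A) (8192 * κ) - psi (rkS x I) (8192 * κ) := by
  set Th := thickSet P μ with hTh
  have hT := rkS_posOp x A
  set T := rkS x A with hTdef
  have hE₂ : 0 < P.E₂ := by linarith
  set lam : ℝ := 8192 * κ with hlam
  have hlam0 : 0 < lam := by positivity
  set c : Fin P.n → ℝ := fun k => ⟪b k, x i₀⟫ with hc
  have h1 := psi_drop x hI hlam0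
  rw [← hTdef] at h1
  have h2 : ‖res T lam (x i₀)‖ ^ 2 ≤ ∑ i ∈ A \ I, ‖res T lam (x i)‖ ^ 2 :=
    Finset.single_le_sum (f := fun i => ‖res T lam (x i)‖ ^ 2) (fun _ _ => sq_nonneg _)
      (Finset.mem_sdiff.mpr ⟨hi₀, hi₀I⟩)
  have h3 : ‖res T lam (x i₀)‖ ^ 2 = ∑ k, (c k / (μ k + lam)) ^ 2 := by
    rw [norm_sq_eq_sum b]
    refine Finset.sum_congr rfl (fun k _ => ?_)
    rw [res_inner_basis hT hb hμ hlam0]
  have h4 : qt T κ (2 * P.E₂) (x i₀) = ∑ k, c k ^ 2 * (1 / (μ k + κ) - 1 / (μ k + 2 * P.E₂)) := by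
    unfold qt
    rw [res_eq_sum hT hb hμ hκ, res_eq_sum hT hb hμ (by positivity), ← Finset.sum_sub_distrib]
    refine Finset.sum_congr rfl (fun k _ => ?_)
    simp only [hc]
    ring
  have h5 : ∀ k, c k ^ 2 * (1 / (μ k + κ) - 1 / (μ k + 2 * P.E₂)) ≤
      (if k ∈ Th then c k ^ 2 / P.E₂ else c k ^ 2 / lam) +
        16384 * (lam * (c k / (μ k + lam)) ^ 2) := by
    intro k
    have hμ0 := hμ k
    have hc0 : 0 ≤ c k ^ 2 := sq_nonneg _
    have hneg : 0 ≤ 1 / (μ k + 2 * P.E₂) := by positivity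
    have h6 : c k ^ 2 * (1 / (μ k + κ) - 1 / (μ k + 2 * P.E₂)) ≤ c k ^ 2 * (1 / (μ k + κ)) :=
      mul_le_mul_of_nonneg_left (by linarith) hc0
    have hnn : 0 ≤ 16384 * (lam * (c k / (μ k + lam)) ^ 2) := by positivity
    by_cases hk : k ∈ Th
    · rw [if_pos hk]
      have h7 : P.E₂ ≤ μ k := (Finset.mem_filter.mp hk).2
      have h8 : 1 / (μ k + κ) ≤ 1 / P.E₂ := by
        apply one_div_le_one_div_of_le hE₂
        linarith
      have h9 : c k ^ 2 * (1 / (μ k + κ)) ≤ c k ^ 2 * (1 / P.E₂) :=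
        mul_le_mul_of_nonneg_left h8 hc0
      have h10 : c k ^ 2 * (1 / P.E₂) = c k ^ 2 / P.E₂ := by ring
      linarith
    · rw [if_neg hk]
      have hnn2 : 0 ≤ c k ^ 2 / lam := by positivity
      by_cases hl : lam < μ k
      · have h8 : 1 / (μ k + κ) ≤ 1 / lam := by
          apply one_div_le_one_div_of_le hlam0
          linarith
        have h9 : c k ^ 2 * (1 / (μ k + κ)) ≤ c k ^ 2 * (1 / lam) :=
          mul_le_mul_of_nonneg_left h8 hc0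
        have h10 : c k ^ 2 * (1 / lam) = c k ^ 2 / lam := by ring
        linarith
      · push Not at hl
        have h8 : 1 / (μ k + κ) ≤ 16384 * lam / (μ k + lam) ^ 2 := by
          rw [div_le_div_iff₀ (by positivity) (by positivity), one_mul]
          have h9 : μ k + lam ≤ 2 * lam := by linarith
          have h10 : μ k + lam ≤ 8192 * (μ k + κ) := by
            rw [hlam]
            nlinarith
          have h11 : (μ k + lam) ^ 2 ≤ (2 * lam) * (8192 * (μ k + κ)) := by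
            rw [sq]
            exact mul_le_mul h9 h10 (by positivity) (by positivity)
          nlinarith
        have h9 := mul_le_mul_of_nonneg_left h8 hc0
        have h10 : c k ^ 2 * (16384 * lam / (μ k + lam) ^ 2) =
            16384 * (lam * (c k / (μ k + lam)) ^ 2) := by
          rw [div_pow]
          ring
        linarith
  have h6 : ∑ k, (if k ∈ Th then c k ^ 2 / P.E₂ else c k ^ 2 / lam) ≤ 1 / 8192 + 1 / 8192 := by
    have h7 : ∑ k, (if k ∈ Th then c k ^ 2 / P.E₂ else c k ^ 2 / lam) =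
        (∑ k ∈ Th, c k ^ 2) / P.E₂ + (∑ k ∈ Thᶜ, c k ^ 2) / lam := by
      rw [← Finset.sum_add_sum_compl Th, Finset.sum_div, Finset.sum_div]
      congr 1
      · exact Finset.sum_congr rfl (fun k hk => by rw [if_pos hk])
      · exact Finset.sum_congr rfl (fun k hk => by
          rw [if_neg (by simpa using hk)])
    rw [h7]
    have h8 : ∑ k, c k ^ 2 ≤ 1 := by
      have h9 := norm_sq_eq_sum b (x i₀)
      rw [← h9]
      exact pow_le_one₀ (norm_nonneg _) hxn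
    have h9 : ∑ k ∈ Th, c k ^ 2 ≤ 1 :=
      (Finset.sum_le_sum_of_subset_of_nonneg (Finset.subset_univ _)
        (fun _ _ _ => sq_nonneg _)).trans h8
    have h10 : ∑ k ∈ Thᶜ, c k ^ 2 ≤ κ := by
      have := hsoft
      rwa [sproj_norm_sq] at this
    have h11 : (∑ k ∈ Th, c k ^ 2) / P.E₂ ≤ 1 / 8192 := by
      have h12 : 0 ≤ ∑ k ∈ Th, c k ^ 2 := Finset.sum_nonneg (fun _ _ => sq_nonneg _)
      exact div_le_div₀ (by norm_num) h9 (by norm_num) hE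
    have h12 : (∑ k ∈ Thᶜ, c k ^ 2) / lam ≤ 1 / 8192 := by
      rw [div_le_iff₀ hlam0, hlam]
      nlinarith
    linarith
  have h7 : qt T κ (2 * P.E₂) (x i₀) ≤ 1 / 8192 + 1 / 8192 + 16384 * (lam * ‖res T lam (x i₀)‖ ^ 2) := by
    rw [h4, h3]
    refine (Finset.sum_le_sum (fun k _ => h5 k)).trans ?_
    rw [Finset.sum_add_distrib, ← Finset.mul_sum, ← Finset.mul_sum]
    linarith
  have h8 : lam * ‖res T lam (x i₀)‖ ^ 2 ≤ psi T lam - psi (rkS x I) lam :=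
    (mul_le_mul_of_nonneg_left h2 hlam0.le).trans h1
  unfold cp
  have h9 : (1 / 2 : ℝ) ^ 25 = 1 / 33554432 := by norm_num
  rw [h9]
  linarith

/-- `κm` is below the base scale. -/
lemma κm_le_κs (P : Par) (s : ℕ) : P.κm s ≤ κs s := by
  unfold Par.κm κs
  have h1 : (1 / 4 : ℝ) ^ s = (1 / 2) ^ (2 * s) := by
    rw [pow_mul]
    norm_num
  rw [h1]
  apply pow_le_pow_of_le_one (by norm_num) (by norm_num)
  omega

lemma qt_anti {T : E →ₗ[ℝ] E} (hT : PosOp T) {κ κ' σ : ℝ} (h0 : 0 < κ) (h : κ ≤ κ') (v : E) :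
    qt T κ' σ v ≤ qt T κ σ v := by
  unfold qt
  have := res_anti hT h0 h v
  linarith

/-- Existence of the split at a node. -/
theorem node_exists (P : Par) (hP : P.Adm) (x : ι → E) (hx : ∀ i, ‖x i‖ ≤ 1) (A : Finset ι)
    (hA : 34 ≤ A.card) (b : OrthonormalBasis (Fin P.n) ℝ E) (μ : Fin P.n → ℝ)
    (hb : ∀ k, (rkS x A) (b k) = μ k • b k) (hμ : ∀ k, 0 ≤ μ k) (h y : E) (hh : ‖h‖ ≤ 1 / 4) :
    Nonempty (NodeOut P x A b μ h y) := by
  classical
  set Th := thickSet P μ with hTh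
  have hThM : ∀ k ∈ Th, P.E₂ ≤ μ k := fun k hk => (Finset.mem_filter.mp hk).2
  have hThN : ∀ k, k ∉ Th → μ k < P.E₂ := by
    intro k hk
    by_contra hcon
    push Not at hcon
    exact hk (Finset.mem_filter.mpr ⟨Finset.mem_univ _, hcon⟩)
  have hnb : ∀ i, |⟪x i, h⟫| ≤ 1 / 4 := by
    intro i
    have h1 : |⟪x i, h⟫| ≤ ‖x i‖ * ‖h‖ := abs_real_inner_le_norm _ _
    have h2 : ‖x i‖ * ‖h‖ ≤ 1 * (1 / 4) :=
      mul_le_mul (hx i) hh (norm_nonneg _) zero_le_one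
    linarith
  have hne : A.Nonempty := by
    rw [← Finset.card_pos]
    omega
  obtain ⟨i₁, hi₁, hmax⟩ := Finset.exists_max_image A
    (fun i => ‖sproj b Thᶜ (x i)‖ ^ 2) hne
  set ε := ‖sproj b Thᶜ (x i₁)‖ ^ 2 with hεdef
  have hε0 : 0 ≤ ε := by positivity
  have hsoft : ∀ i ∈ A, ‖sproj b Thᶜ (x i)‖ ^ 2 ≤ ε := hmax
  have hnorm1 : ∀ i, ∑ k, ⟪b k, x i⟫ ^ 2 ≤ 1 := by
    intro i
    rw [← norm_sq_eq_sum b]
    exact pow_le_one₀ (norm_nonneg _) (hx i)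
  have hTh1 : ∀ i, ∑ k ∈ Th, ⟪b k, x i⟫ ^ 2 ≤ 1 := fun i =>
    (Finset.sum_le_sum_of_subset_of_nonneg (Finset.subset_univ _)
      (fun _ _ _ => sq_nonneg _)).trans (hnorm1 i)
  have hSo1 : ∀ i ∈ A, ∑ k ∈ Thᶜ, ⟪b k, x i⟫ ^ 2 ≤ ε := by
    intro i hi
    have := hsoft i hi
    rwa [sproj_norm_sq] at this
  have hε1 : ε ≤ 1 := by
    rw [hεdef, sproj_norm_sq]
    exact (Finset.sum_le_sum_of_subset_of_nonneg (Finset.subset_univ _)
      (fun _ _ _ => sq_nonneg _)).trans (hnorm1 i₁)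
  have hcoordμ : ∀ i ∈ A, ∀ k, ⟪b k, x i⟫ ^ 2 ≤ μ k := by
    intro i hi k
    rw [← sum_coord_sq x A hb k]
    exact Finset.single_le_sum (f := fun j => ⟪b k, x j⟫ ^ 2) (fun _ _ => sq_nonneg _) hi
  -- numerics
  have hn1 : (1 : ℝ) ≤ (P.n : ℝ) := by exact_mod_cast hP.hn
  set d : ℝ := P.η ^ 2 / 4 with hd
  have hd0 : 0 ≤ d := by positivity
  set Dd : ℝ := (P.n : ℝ) * d with hDd
  have hηe : P.η = 1 / (P.n : ℝ) ^ 3 := rfl
  have hDde : Dd = 1 / (4 * (P.n : ℝ) ^ 5) := by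
    rw [hDd, hd, hηe]
    field_simp
  have hDdp : 0 < Dd := by
    rw [hDde]
    positivity
  have hpow : ((2 : ℝ) ^ (P.ρ + 1)) ≤ 4 * (P.n : ℝ) := by
    have h3 : ((2 ^ P.ρ : ℕ) : ℝ) ≤ ((2 * P.n : ℕ) : ℝ) := by exact_mod_cast hP.hρ2
    push_cast at h3
    rw [pow_succ]
    linarith
  have hdn : (2 : ℝ) ^ (P.ρ + 1) * Dd ≤ 1 := by
    rw [hDde]
    have h5 : (P.n : ℝ) ≤ (P.n : ℝ) ^ 5 := le_self_pow₀ hn1 (by norm_num)
    have h6 : 0 < (P.n : ℝ) ^ 5 := by positivity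
    rw [mul_one_div, div_le_one (by positivity)]
    linarith
  have hnd4 : (P.n : ℝ) * d ≤ 1 / 4 := by
    rw [← hDd, hDde]
    apply one_div_le_one_div_of_le (by norm_num)
    have h5 : (1 : ℝ) ≤ (P.n : ℝ) ^ 5 := one_le_pow₀ hn1
    linarith
  have hKn : P.n ≤ 2 ^ (P.ρ + 1) := by
    rw [pow_succ]
    have := hP.hρ1
    omega
  have hBg : (0 : ℝ) < P.B := Par.B_pos
  have hCE := Par.CE_pos
  have hBe : P.B = 16 * CE := rfl
  have hCEv : CE = 2239569 := by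
    unfold CE cH
    norm_num
  have hCw : Cw = 331776 := rfl
  have hLC : (654 : ℝ) ≤ CE := by
    rw [hCEv]
    norm_num
  -- the rank of the thick eigenvalues
  obtain ⟨r, hr1', hr2', hr3'⟩ := exists_rank Th μ
  -- general facts about a set of weights
  have hgen : ∀ Ac : Finset (Fin P.n), (∀ i ∈ A, ∀ k, k ∉ Th → k ∉ Ac → ⟪b k, x i⟫ ^ 2 ≤ ε * d) →
      ∀ i ∈ A, ∑ k, vw Th Ac ε Dd k * ⟪b k, x i⟫ ^ 2 ≤ 3 := by
    intro Ac hdead i hi
    exact vw_tau Th Ac hε0 hd0 hDdp le_rfl (fun k => ⟪b k, x i⟫) (hTh1 i) (hSo1 i hi) (hdead i hi)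
  have hthick : ∀ (Ac : Finset (Fin P.n)) (e : E),
      PB (vw Th Ac ε Dd) (mk r Th Ac) P.ρ CE (fun k => ⟪b k, e⟫) →
      ∀ κ : ℝ, 0 < κ → ∑ k ∈ Th, κ / (μ k + κ) * ⟪b k, e⟫ ^ 2 ≤ P.B * tauS μ Th κ := by
    intro Ac e hQ κ hκ
    rw [hBe]
    exact pb_thick hμ hCE.le hε0 hDdp.le hr1' hr2' hr3' hQ hκ
  have hthall : ∀ (Ac : Finset (Fin P.n)) (e : E),
      PB (vw Th Ac ε Dd) (mk r Th Ac) P.ρ CE (fun k => ⟪b k, e⟫) →
      ∑ k ∈ Th, ⟪b k, e⟫ ^ 2 ≤ CE * (4 * (P.n : ℝ)) := by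
    intro Ac e hQ
    exact (pb_th_all hε0 hDdp.le hQ).trans (mul_le_mul_of_nonneg_left hpow hCE.le)
  by_cases hεz : ε = 0
  · -- no soft part at all
    have hdead : ∀ i ∈ A, ∀ k, k ∉ Th → k ∉ (∅ : Finset (Fin P.n)) → ⟪b k, x i⟫ ^ 2 ≤ ε * d := by
      intro i hi k hk _
      rw [hεz, zero_mul]
      have h1 := hSo1 i hi
      have h2 : ⟪b k, x i⟫ ^ 2 ≤ ∑ l ∈ Thᶜ, ⟪b l, x i⟫ ^ 2 :=
        Finset.single_le_sum (f := fun l => ⟪b l, x i⟫ ^ 2) (fun _ _ => sq_nonneg _)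
          (by simpa using hk)
      linarith
    have hτ := hgen ∅ hdead
    obtain ⟨I₁, e, a, F, hI₁, hc1, hc0, hsum, hye, hQ, hzero, hbal1, hbal0, hFA, hFc, ha, _, _⟩ :=
      L_level2 x A b h y hnb (fun _ => 0) (fun _ _ => le_rfl) (fun _ _ => by simp)
        (vw Th ∅ ε Dd) (vw_nonneg Th ∅ hε0 hDdp.le) (mk r Th ∅) P.ρ (fun t _ => mk_card hr2' ∅ t) hτ
        hKn hA
    have hQB : PB (vw Th ∅ ε Dd) (mk r Th ∅) P.ρ CE (fun k => ⟪b k, e⟫) := PB_mono hLC hQ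
    have hth := hthick ∅ e hQB
    have hso0 : ∑ k ∈ Thᶜ, ⟪b k, e⟫ ^ 2 = 0 := by
      apply Finset.sum_eq_zero
      intro k hk
      have hk' : k ∉ Th := by simpa using hk
      rw [hzero k (fun i hi => by
        have h1 := hdead i hi k hk' (by simp)
        rw [hεz, zero_mul] at h1
        have h2 := sq_nonneg ⟪b k, x i⟫
        have h3 : ⟪b k, x i⟫ ^ 2 = 0 := le_antisymm h1 h2
        simpa using h3)]
      simp
    have hthn := hthall ∅ e hQB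
    have hen : ‖e‖ ^ 2 ≤ 3 * (P.n : ℝ) * P.B := by
      rw [norm_sq_eq_sum b, ← Finset.sum_add_sum_compl Th, hso0, add_zero, hBe]
      have : (0 : ℝ) ≤ (P.n : ℝ) * CE := by positivity
      linarith
    have hFcD : F.card ≤ P.D := by
      have h3 : 2 * (3 + P.n + P.n ^ 2) ≤ P.D := by
        unfold Par.D cH
        omega
      exact hFc.trans h3
    exact ⟨{ ε := ε, s := 0, Ac := ∅, I₁ := I₁, I₀ := A \ I₁, Fc := ∅, ν := fun _ => 0, e := e,
             a₁ := a, a₀ := fun i => - a i, F₁ := F, F₀ := F,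
             hε0 := hε0, hε1 := hε1, hsoft := hsoft, hAc := by simp,
             hεs := fun h => absurd hεz h.ne', hr1 := fun h => absurd hεz h.ne',
             hI₁ := hI₁, hI₀ := Finset.sdiff_subset, hFc := by simp,
             hd₁ := Finset.disjoint_sdiff, hd₂ := by simp, hd₃ := by simp,
             hU := by
               rw [Finset.union_empty]
               exact Finset.union_sdiff_of_subset hI₁,
             hc₁ := hc1, hc₀ := hc0, hFcC := by simp [C₃]; positivity, hνFc := by simp,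
             hsum := by simpa using hsum, hye := hye, hth := hth,
             hso := by rw [hso0, hεz]; simp, hen := hen,
             hbal₁ := hbal1, hbal₀ := hbal0, hF₁ := hFA, hF₀ := hFA,
             hF₁c := hFcD, hF₀c := hFcD, ha₁ := ha,
             ha₀ := fun i hi => by rw [abs_neg]; exact ha i hi,
             hdrop₁ := fun h => absurd hεz h.ne', hdrop₀ := fun h => absurd hεz h.ne',
             hheavy := Or.inl rfl }⟩
  · -- a soft part exists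
    have hεp : 0 < ε := lt_of_le_of_ne hε0 (Ne.symm hεz)
    obtain ⟨s, hs1, hs2⟩ := exists_nat_pow_near_of_lt_one hεp hε1
      (by norm_num : (0 : ℝ) < 1 / 4) (by norm_num : (1 / 4 : ℝ) < 1)
    set Ac : Finset (Fin P.n) := Finset.univ.filter (fun k => k ∉ Th ∧ ε * P.η ^ 2 / 4 < μ k) with hAcdef
    have hAcd : Disjoint Th Ac := by
      rw [Finset.disjoint_left]
      intro k h1 h2
      exact (Finset.mem_filter.mp h2).2.1 h1
    have hAcdead : ∀ k, k ∉ Th → k ∉ Ac → μ k ≤ ε * P.η ^ 2 / 4 := by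
      intro k h1 h2
      by_contra hcon
      push Not at hcon
      exact h2 (Finset.mem_filter.mpr ⟨Finset.mem_univ _, h1, hcon⟩)
    have hdead : ∀ i ∈ A, ∀ k, k ∉ Th → k ∉ Ac → ⟪b k, x i⟫ ^ 2 ≤ ε * d := by
      intro i hi k h1 h2
      have h3 := hcoordμ i hi k
      have h4 := hAcdead k h1 h2
      have h5 : ε * d = ε * P.η ^ 2 / 4 := by rw [hd]; ring
      rw [h5]
      linarith
    have hτ := hgen Ac hdead
    have hr1 : 1 ≤ (Ac.card : ℝ) := by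
      by_contra hcon
      push Not at hcon
      have hc0 : Ac.card = 0 := by
        have : (Ac.card : ℝ) < 1 := hcon
        have h2 : Ac.card < 1 := by exact_mod_cast this
        omega
      have hAe : Ac = ∅ := Finset.card_eq_zero.mp hc0
      have h2 : ε ≤ ∑ k ∈ Thᶜ, ε * d := by
        have h3 : ε = ∑ k ∈ Thᶜ, ⟪b k, x i₁⟫ ^ 2 := by rw [hεdef, sproj_norm_sq]
        conv_lhs => rw [h3]
        refine Finset.sum_le_sum (fun k hk => ?_)
        exact hdead i₁ hi₁ k (by simpa using hk) (by rw [hAe]; simp)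
      have h3 : ∑ k ∈ Thᶜ, ε * d ≤ (P.n : ℝ) * (ε * d) := by
        rw [Finset.sum_const, nsmul_eq_mul]
        apply mul_le_mul_of_nonneg_right _ (by positivity)
        have : (Thᶜ).card ≤ P.n := by simpa using Finset.card_le_univ Thᶜ
        exact_mod_cast this
      have h4 : (P.n : ℝ) * d ≤ 1 / 4 := hnd4
      nlinarith
    have hr1n : 1 ≤ Ac.card := by exact_mod_cast hr1
    have hAcμ : ∀ k ∈ Ac, P.κm s ≤ μ k ∧ μ k < P.E₂ := by
      intro k hk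
      have h1 := (Finset.mem_filter.mp hk).2
      have h2 := κm_le P hP hs1
      exact ⟨by linarith [h1.2], hThN k h1.1⟩
    set qq : ι → ℝ := fun i => qt (rkS x A) (P.κm s) (2 * P.E₂) (x i) with hqqdef
    have hqq0 : ∀ i, 0 ≤ qq i := fun i => qq_nonneg P x A s i
    have hκm := Par.κm_pos (P := P) s
    have hqq1 : ∀ i ∈ A, qq i ≤ 1 := by
      intro i hi
      have h1 : P.κm s ≤ 2 * P.E₂ := by
        have h2 : P.κm s ≤ 1 := by
          unfold Par.κm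
          exact pow_le_one₀ (by norm_num) (by norm_num)
        have h3 : (1 : ℝ) ≤ P.g := Par.one_le_g
        have h4 : P.E₂ = 32 * P.g := rfl
        linarith
      exact qt_item_le x hi hκm h1
    have hpool : (Ac.card : ℝ) / 6 ≤ ∑ i ∈ A, qq i := pool_ge P x A hb hμ s Ac hAcμ
    have hAcn : (Ac.card : ℝ) ≤ (P.n : ℝ) := by
      have : Ac.card ≤ P.n := by simpa using Finset.card_le_univ Ac
      exact_mod_cast this
    have hcons : ∀ e : E, PB (vw Th Ac ε Dd) (mk r Th Ac) P.ρ CE (fun k => ⟪b k, e⟫) →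
        ∑ k ∈ Thᶜ, ⟪b k, e⟫ ^ 2 ≤ 2 * P.B * (ε * (Ac.card : ℝ)) ∧
        ‖e‖ ^ 2 ≤ 3 * (P.n : ℝ) * P.B := by
      intro e hQB
      have hthn := hthall Ac e hQB
      have h1 := pb_active hεp hDdp.le hCE.le hAcd hr1n hQB
      have h2 := pb_dead hεp hDdp hQB
      have h3 : Thᶜ = Ac ∪ (Th ∪ Ac)ᶜ := by
        ext k
        simp only [Finset.mem_compl, Finset.mem_union, not_or]
        have hdk : k ∈ Th → k ∉ Ac := fun h7 => Finset.disjoint_left.mp hAcd h7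
        tauto
      have h4 : Disjoint Ac (Th ∪ Ac)ᶜ := by
        rw [Finset.disjoint_left]
        intro k h5 h6
        simp only [Finset.mem_compl, Finset.mem_union, not_or] at h6
        exact h6.2 h5
      have h5 : ∑ k ∈ Thᶜ, ⟪b k, e⟫ ^ 2 = ∑ k ∈ Ac, ⟪b k, e⟫ ^ 2 + ∑ k ∈ (Th ∪ Ac)ᶜ, ⟪b k, e⟫ ^ 2 := by
        rw [h3, Finset.sum_union h4]
      have h6 : CE * 2 ^ (P.ρ + 1) * (ε * Dd) ≤ CE * ε := by
        have h7 : CE * 2 ^ (P.ρ + 1) * (ε * Dd) = (CE * ε) * (2 ^ (P.ρ + 1) * Dd) := by ring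
        rw [h7]
        have h8 := mul_le_mul_of_nonneg_left hdn (by positivity : 0 ≤ CE * ε)
        linarith
      have h7 : ε ≤ ε * (Ac.card : ℝ) := le_mul_of_one_le_right hε0 hr1
      have h8 : CE * ε ≤ CE * (ε * (Ac.card : ℝ)) := mul_le_mul_of_nonneg_left h7 hCE.le
      have h9 : ∑ k ∈ Thᶜ, ⟪b k, e⟫ ^ 2 ≤ 5 * CE * (ε * (Ac.card : ℝ)) := by
        rw [h5]
        linarith
      have h10 : 0 ≤ CE * (ε * (Ac.card : ℝ)) :=
        mul_nonneg hCE.le (mul_nonneg hε0 (Nat.cast_nonneg _))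
      refine ⟨?_, ?_⟩
      · rw [hBe]
        linarith
      · rw [norm_sq_eq_sum b, ← Finset.sum_add_sum_compl Th, hBe]
        have h11 : ε * (Ac.card : ℝ) ≤ 1 * (P.n : ℝ) :=
          mul_le_mul hε1 hAcn (Nat.cast_nonneg _) zero_le_one
        have h12 : CE * (ε * (Ac.card : ℝ)) ≤ CE * (1 * (P.n : ℝ)) :=
          mul_le_mul_of_nonneg_left h11 hCE.le
        have h13 : 0 ≤ CE * (P.n : ℝ) := by positivity
        nlinarith
    have hFcD3 : ∀ F : Finset ι, F.card ≤ 2 * (3 + P.n + P.n ^ 2) → F.card ≤ P.D := by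
      intro F hFc
      have h3 : 2 * (3 + P.n + P.n ^ 2) ≤ P.D := by
        unfold Par.D cH
        omega
      exact hFc.trans h3
    have hr0 : (0 : ℝ) ≤ (Ac.card : ℝ) := Nat.cast_nonneg _
    -- all the cases of a split without committed items
    have hfin : ∀ (I₁ : Finset ι) (e : E) (a : ι → ℝ) (F : Finset ι), I₁ ⊆ A → I₁.card < A.card →
        (A \ I₁).card < A.card → ∑ i ∈ I₁, x i = ∑ i ∈ A, nbv x h i • x i + e → ⟪y, e⟫ ≤ 0 →
        PB (vw Th Ac ε Dd) (mk r Th Ac) P.ρ CE (fun k => ⟪b k, e⟫) →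
        (∀ v, ⟪rkS x I₁ v, v⟫ = (1 / 2) * ⟪rkS x A v, v⟫ + (-1) * ∑ i ∈ A, ⟪x i, h⟫ * ⟪x i, v⟫ ^ 2 +
          ∑ i ∈ F, a i * ⟪x i, v⟫ ^ 2) →
        (∀ v, ⟪rkS x (A \ I₁) v, v⟫ = (1 / 2) * ⟪rkS x A v, v⟫ + 1 * ∑ i ∈ A, ⟪x i, h⟫ * ⟪x i, v⟫ ^ 2 +
          ∑ i ∈ F, (- a i) * ⟪x i, v⟫ ^ 2) →
        F ⊆ A → F.card ≤ 2 * (3 + P.n + P.n ^ 2) → (∀ i ∈ F, |a i| ≤ 1) →
        (Ac.card : ℝ) / Cw ≤ P.Lev (rkS x A) s - P.Lev (rkS x I₁) s →
        (Ac.card : ℝ) / Cw ≤ P.Lev (rkS x A) s - P.Lev (rkS x (A \ I₁)) s →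
        Nonempty (NodeOut P x A b μ h y) := by
      intro I₁ e a F hI₁ hc1 hc0 hsum hye hQB hbal1 hbal0 hFA hFc ha hdrop1 hdrop0
      obtain ⟨hso, hen⟩ := hcons e hQB
      have hFcD := hFcD3 F hFc
      exact ⟨{ ε := ε, s := s, Ac := Ac, I₁ := I₁, I₀ := A \ I₁, Fc := ∅, ν := fun _ => 0, e := e,
               a₁ := a, a₀ := fun i => - a i, F₁ := F, F₀ := F,
               hε0 := hε0, hε1 := hε1, hsoft := hsoft, hAc := hAcd,
               hεs := fun _ => hs2, hr1 := fun _ => hr1,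
               hI₁ := hI₁, hI₀ := Finset.sdiff_subset, hFc := by simp,
               hd₁ := Finset.disjoint_sdiff, hd₂ := by simp, hd₃ := by simp,
               hU := by
                 rw [Finset.union_empty]
                 exact Finset.union_sdiff_of_subset hI₁,
               hc₁ := hc1, hc₀ := hc0, hFcC := by simp [C₃]; positivity, hνFc := by simp,
               hsum := by simpa using hsum, hye := hye, hth := hthick Ac e hQB,
               hso := hso, hen := hen,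
               hbal₁ := hbal1, hbal₀ := hbal0, hF₁ := hFA, hF₀ := hFA,
               hF₁c := hFcD, hF₀c := hFcD, ha₁ := ha,
               ha₀ := fun i hi => by rw [abs_neg]; exact ha i hi,
               hdrop₁ := fun _ => hdrop1, hdrop₀ := fun _ => hdrop0,
               hheavy := Or.inl rfl }⟩
    by_cases hr288 : 288 ≤ Ac.card
    · -- many active directions: no item can be heavy
      have hr288' : (288 : ℝ) ≤ (Ac.card : ℝ) := by exact_mod_cast hr288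
      have hL : ∀ i ∈ A, qq i ≤ (∑ j ∈ A, qq j) / 48 := by
        intro i hi
        have := hqq1 i hi
        linarith
      obtain ⟨I₁, e, a, F, hI₁, hc1, hc0, hsum, hye, hQ, _, hbal1, hbal0, hFA, hFc, ha, hd0, hd1⟩ :=
        L_level2 x A b h y hnb qq (fun i _ => hqq0 i) hL
          (vw Th Ac ε Dd) (vw_nonneg Th Ac hε0 hDdp.le) (mk r Th Ac) P.ρ (fun t _ => mk_card hr2' Ac t)
          hτ hKn hA
      have hdrop1 : (Ac.card : ℝ) / Cw ≤ P.Lev (rkS x A) s - P.Lev (rkS x I₁) s := by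
        have h1 := lev_drop P x hI₁ s
        have h2 : ∑ i ∈ A \ I₁, qt (rkS x A) (P.κm s) (2 * P.E₂) (x i) = ∑ i ∈ A \ I₁, qq i := rfl
        rw [h2] at h1
        rw [hCw]
        linarith
      have hdrop0 : (Ac.card : ℝ) / Cw ≤ P.Lev (rkS x A) s - P.Lev (rkS x (A \ I₁)) s := by
        have h1 := lev_drop P x (Finset.sdiff_subset : A \ I₁ ⊆ A) s
        rw [Finset.sdiff_sdiff_eq_self hI₁] at h1
        have h2 : ∑ i ∈ I₁, qt (rkS x A) (P.κm s) (2 * P.E₂) (x i) = ∑ i ∈ I₁, qq i := rfl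
        rw [h2] at h1
        rw [hCw]
        linarith
      exact hfin I₁ e a F hI₁ hc1 hc0 hsum hye (PB_mono hLC hQ) hbal1 hbal0 hFA hFc ha hdrop1 hdrop0
    · -- few active directions: the measure at the base scale decides
      push Not at hr288
      have hr287' : (Ac.card : ℝ) ≤ 287 := by
        have : Ac.card ≤ 287 := by omega
        exact_mod_cast this
      have hrCw : (Ac.card : ℝ) / Cw ≤ 1 / 1152 := by
        rw [hCw, div_le_div_iff₀ (by norm_num) (by norm_num)]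
        linarith
      set κ := κs s with hκdef
      have hκ : 0 < κ := κs_pos s
      have hκ1 : κ ≤ 1 := κs_le s
      have hεκ : ε ≤ κ := hs2
      have hκε : κ < 4 * ε := by
        have h1 : (1 / 4 : ℝ) ^ (s + 1) = κ / 4 := by
          rw [hκdef]
          unfold κs
          rw [pow_succ]
          ring
        rw [h1] at hs1
        linarith
      have hE₂ := hP.hE
      have hE₁ : (1 : ℝ) ≤ P.E₂ := by linarith
      have hκm2 : P.κm s ≤ κ := κm_le_κs P s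
      set qn : ι → ℝ := fun i => qt (rkS x A) κ (2 * P.E₂) (x i) with hqndef
      have hqnq : ∀ i, qn i ≤ qq i := fun i => qt_anti (rkS_posOp x A) hκm hκm2 _
      have hqn0 : ∀ i, 0 ≤ qn i := fun i =>
        qt_nonneg (rkS_posOp x A) hκ (by linarith) _
      have hmass : ∑ k ∈ (thickSet P μ)ᶜ, ⟪b k, x i₁⟫ ^ 2 = ε := by
        rw [hεdef, sproj_norm_sq]
      have hpooln : 1 / 24 ≤ ∑ i ∈ A, qn i :=
        pool_new_ge P x A hb hμ hκ hκ1 hE₁ hεκ hκε hi₁ hmass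
      by_cases hLn : ∀ i ∈ A, qn i ≤ (∑ j ∈ A, qn j) / 48
      · -- no heavy item at the base scale
        obtain ⟨I₁, e, a, F, hI₁, hc1, hc0, hsum, hye, hQ, _, hbal1, hbal0, hFA, hFc, ha, hd0, hd1⟩ :=
          L_level2 x A b h y hnb qn (fun i _ => hqn0 i) hLn
            (vw Th Ac ε Dd) (vw_nonneg Th Ac hε0 hDdp.le) (mk r Th Ac) P.ρ
            (fun t _ => mk_card hr2' Ac t) hτ hKn hA
        have hdrop1 : (Ac.card : ℝ) / Cw ≤ P.Lev (rkS x A) s - P.Lev (rkS x I₁) s := by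
          have h1 := lev_drop P x hI₁ s
          have h2 : ∑ i ∈ A \ I₁, qt (rkS x A) (P.κm s) (2 * P.E₂) (x i) = ∑ i ∈ A \ I₁, qq i := rfl
          rw [h2] at h1
          have h3 : ∑ i ∈ A \ I₁, qn i ≤ ∑ i ∈ A \ I₁, qq i :=
            Finset.sum_le_sum (fun i _ => hqnq i)
          linarith
        have hdrop0 : (Ac.card : ℝ) / Cw ≤ P.Lev (rkS x A) s - P.Lev (rkS x (A \ I₁)) s := by
          have h1 := lev_drop P x (Finset.sdiff_subset : A \ I₁ ⊆ A) s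
          rw [Finset.sdiff_sdiff_eq_self hI₁] at h1
          have h2 : ∑ i ∈ I₁, qt (rkS x A) (P.κm s) (2 * P.E₂) (x i) = ∑ i ∈ I₁, qq i := rfl
          rw [h2] at h1
          have h3 : ∑ i ∈ I₁, qn i ≤ ∑ i ∈ I₁, qq i :=
            Finset.sum_le_sum (fun i _ => hqnq i)
          linarith
        exact hfin I₁ e a F hI₁ hc1 hc0 hsum hye (PB_mono hLC hQ) hbal1 hbal0 hFA hFc ha hdrop1 hdrop0
      · -- a heavy item
        push Not at hLn
        obtain ⟨i₀, hi₀, hheavy⟩ := hLn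
        have hq0 : 1 / 1152 ≤ qn i₀ := by linarith
        have hr287 : Ac.card ≤ 287 := by omega
        have hAcH : 1 + Ac.card ^ 2 ≤ cH := by
          have h1 : Ac.card ^ 2 ≤ 287 ^ 2 := Nat.pow_le_pow_left hr287 2
          unfold cH
          omega
        obtain ⟨I₁, I₀, Fc, ν, e, a₁, a₀, F, hI₁, hI₀, hFcA, hd10, hd1F, hd0F, hU, hi₀Fc, hFccard, hνc,
          hsum, hye, hQ, _, hbal1, hbal0, hFA, hFcard, ha₁, ha₀, hbl1, hbl0⟩ :=
          H_level2 x A b h y hnb Ac (vw Th Ac ε Dd) (vw_nonneg Th Ac hε0 hDdp.le) (mk r Th Ac) P.ρ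
            (fun t _ => mk_card hr2' Ac t) hτ hKn i₀ hi₀ hAcH
        have hQB : PB (vw Th Ac ε Dd) (mk r Th Ac) P.ρ CE (fun k => ⟪b k, e⟫) := hQ
        obtain ⟨hso, hen⟩ := hcons e hQB
        have hi₀1 : i₀ ∉ I₁ := fun h1 => (Finset.disjoint_left.mp hd1F h1) hi₀Fc
        have hi₀0 : i₀ ∉ I₀ := fun h1 => (Finset.disjoint_left.mp hd0F h1) hi₀Fc
        have hcard : ∀ I : Finset ι, I ⊆ A → i₀ ∉ I → I.card < A.card := by
          intro I hI hi
          apply Finset.card_lt_card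
          refine ⟨hI, fun h1 => hi (h1 hi₀)⟩
        have hdropI : ∀ I : Finset ι, I ⊆ A → i₀ ∉ I →
            (Ac.card : ℝ) / Cw ≤ P.Lev (rkS x A) s - P.Lev (rkS x I) s := by
          intro I hI hi
          have h1 := lev_drop P x hI s
          have h2 : qq i₀ ≤ ∑ i ∈ A \ I, qq i :=
            Finset.single_le_sum (f := qq) (fun j _ => hqq0 j) (Finset.mem_sdiff.mpr ⟨hi₀, hi⟩)
          have h3 : ∑ i ∈ A \ I, qt (rkS x A) (P.κm s) (2 * P.E₂) (x i) = ∑ i ∈ A \ I, qq i := rfl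
          rw [h3] at h1
          have h4 := hqnq i₀
          linarith
        have hcnt : ∀ I : Finset ι, I ⊆ A → i₀ ∉ I →
            cp ≤ psi (rkS x A) (Lam s) - psi (rkS x I) (Lam s) := by
          intro I hI hi
          exact heavy_psi P x hI hb hμ hi₀ hi (hx i₀) hκ hE₂ ((hsoft i₀ hi₀).trans hεκ) hq0
        exact ⟨{ ε := ε, s := s, Ac := Ac, I₁ := I₁, I₀ := I₀, Fc := Fc, ν := ν, e := e,
                 a₁ := a₁, a₀ := a₀, F₁ := F, F₀ := F,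
                 hε0 := hε0, hε1 := hε1, hsoft := hsoft, hAc := hAcd,
                 hεs := fun _ => hs2, hr1 := fun _ => hr1,
                 hI₁ := hI₁, hI₀ := hI₀, hFc := hFcA,
                 hd₁ := hd10, hd₂ := hd1F, hd₃ := hd0F,
                 hU := hU,
                 hc₁ := hcard I₁ hI₁ hi₀1, hc₀ := hcard I₀ hI₀ hi₀0,
                 hFcC := by
                   have : (Fc.card : ℝ) ≤ ((2 * cH + 3 : ℕ) : ℝ) := by exact_mod_cast hFccard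
                   push_cast at this
                   exact this,
                 hνFc := hνc,
                 hsum := hsum, hye := hye.le, hth := hthick Ac e hQB,
                 hso := hso, hen := hen,
                 hbal₁ := hbal1, hbal₀ := hbal0, hF₁ := hFA, hF₀ := hFA,
                 hF₁c := hFcard, hF₀c := hFcard, ha₁ := ha₁, ha₀ := ha₀,
                 hdrop₁ := fun _ => hdropI I₁ hI₁ hi₀1, hdrop₀ := fun _ => hdropI I₀ hI₀ hi₀0,
                 hheavy := Or.inr ⟨hεp, hAcdead, hbl1, hbl0, hcnt I₁ hI₁ hi₀1, hcnt I₀ hI₀ hi₀0⟩ }⟩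

end Vale.Agent.Lib.P262.V
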