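import Vale.Agent.Lib.P262.V.NodeB

/-!
The split at a node with a heavy item.
-/

open scoped RealInnerProductSpace BigOperators
open Module

set_option linter.unusedSectionVars false

namespace Vale.Agent.Lib.P262.V

open Vale.Agent.Lib.P262.U

variable {E : Type*} [NormedAddCommGroup E] [InnerProductSpace ℝ E] [FiniteDimensional ℝ E]
variable {ι : Type*} [DecidableEq ι]
variable {n : ℕ} {μ : Fin n → ℝ}

/-- The split at a node with a heavy item. -/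
lemma H_level2 (x : ι → E) (A : Finset ι) (b : OrthonormalBasis (Fin n) ℝ E) (h y : E)
    (hnb : ∀ i, |⟪x i, h⟫| ≤ 1 / 4) (Ac : Finset (Fin n)) (w : Fin n → ℝ) (hw : ∀ k, 0 ≤ w k)
    (S : ℕ → Finset (Fin n)) (ρ : ℕ) (hS : ∀ t ≤ ρ, (S t).card ≤ 2 ^ t)
    (hτ : ∀ i ∈ A, ∑ k, w k * ⟪b k, x i⟫ ^ 2 ≤ 3)
    (hK : n ≤ 2 ^ (ρ + 1)) (i₀ : ι) (hi₀ : i₀ ∈ A) (hAc : 1 + Ac.card ^ 2 ≤ cH) :
    ∃ (I₁ I₀ Fc : Finset ι) (ν : ι → ℝ) (e : E) (a₁ a₀ : ι → ℝ) (F : Finset ι),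
      I₁ ⊆ A ∧ I₀ ⊆ A ∧ Fc ⊆ A ∧ Disjoint I₁ I₀ ∧ Disjoint I₁ Fc ∧ Disjoint I₀ Fc ∧
      I₁ ∪ Fc ∪ I₀ = A ∧ i₀ ∈ Fc ∧ Fc.card ≤ 2 * cH + 3 ∧ (∀ i ∈ Fc, 0 ≤ ν i ∧ ν i ≤ 1) ∧
      ∑ i ∈ I₁, x i = ∑ i ∈ A, nbv x h i • x i + e - ∑ i ∈ Fc, ν i • x i ∧ ⟪y, e⟫ = 0 ∧
      PB w S ρ (9 * (3 * (cH : ℝ) + 6)) (fun k => ⟪b k, e⟫) ∧
      (∀ k, (∀ i ∈ A, ⟪b k, x i⟫ = 0) → ⟪b k, e⟫ = 0) ∧
      (∀ v, ⟪rkS x I₁ v, v⟫ = (1 / 2) * ⟪rkS x A v, v⟫ + (-1) * ∑ i ∈ A, ⟪x i, h⟫ * ⟪x i, v⟫ ^ 2 +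
        ∑ i ∈ F, a₁ i * ⟪x i, v⟫ ^ 2) ∧
      (∀ v, ⟪rkS x I₀ v, v⟫ = (1 / 2) * ⟪rkS x A v, v⟫ + 1 * ∑ i ∈ A, ⟪x i, h⟫ * ⟪x i, v⟫ ^ 2 +
        ∑ i ∈ F, a₀ i * ⟪x i, v⟫ ^ 2) ∧
      F ⊆ A ∧ F.card ≤ 2 * (cH + n + n ^ 2) + 1 ∧ (∀ i ∈ F, |a₁ i| ≤ 1) ∧ (∀ i ∈ F, |a₀ i| ≤ 1) ∧
      (∀ v, (∀ k, k ∉ Ac → ⟪b k, v⟫ = 0) → ∑ i ∈ F, a₁ i * ⟪x i, v⟫ ^ 2 ≤ 0) ∧
      (∀ v, (∀ k, k ∉ Ac → ⟪b k, v⟫ = 0) → ∑ i ∈ F, a₀ i * ⟪x i, v⟫ ^ 2 ≤ 0) := by
  classical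
  set nb := nbv x h with hnbdef
  have hnb2 : ∀ i, 1 / 4 ≤ nb i ∧ nb i ≤ 3 / 4 := by
    intro i
    have := abs_le.mp (hnb i)
    simp only [hnbdef, nbv]
    constructor <;> linarith [this.1, this.2]
  set A' := A.erase i₀ with hA'
  have hA'A : A' ⊆ A := Finset.erase_subset _ _
  have hA'ne : ∀ i ∈ A', i ≠ i₀ := fun i hi => Finset.ne_of_mem_erase hi
  set c : Fin n → ι → ℝ := fun k i => ⟪b k, x i⟫ with hc
  set yf : ι → ℝ := fun i => ⟪y, x i⟫ with hyf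
  set L₂ : Finset (ι → ℝ) := (Ac ×ˢ Ac).image (fun p i => c p.1 i * c p.2 i) with hL₂
  set L₀ : Finset (ι → ℝ) := insert yf L₂ with hL₀
  have hL₀c : L₀.card ≤ cH := by
    have h1 : L₂.card ≤ Ac.card ^ 2 := by
      calc L₂.card ≤ (Ac ×ˢ Ac).card := Finset.card_image_le
        _ = Ac.card ^ 2 := by rw [Finset.card_product, sq]
    have h2 : L₀.card ≤ L₂.card + 1 := Finset.card_insert_le _ _
    omega
  have hL₀c' : (L₀.card : ℝ) ≤ (cH : ℝ) := by exact_mod_cast hL₀c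
  obtain ⟨ν₁, ν, hν₁, hν, hfl, hLe, hoff, hfl₁, hbalv, _, hQ⟩ := node_walk2 x A' b nb
    (fun i _ => ⟨by linarith [(hnb2 i).1], by linarith [(hnb2 i).2]⟩) w hw L₀ S ρ hS
    (fun i hi => hτ i (hA'A hi)) hK
  set fν := fl A' ν with hfν
  have hfνA : ∀ i ∈ fν, i ∈ A' := fun i hi => (mem_fl.mp hi).1
  have hi₀fν : i₀ ∉ fν := fun h1 => hA'ne i₀ (hfνA i₀ h1) rfl
  set Fc := insert i₀ fν with hFc
  set I₁ := A'.filter (fun i => ν i = 1) with hI₁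
  set I₀ := A'.filter (fun i => ν i = 0) with hI₀
  set νt : ι → ℝ := fun i => if i = i₀ then nb i else ν i with hνt
  have hI₁A' : I₁ ⊆ A' := Finset.filter_subset _ _
  have hI₀A' : I₀ ⊆ A' := Finset.filter_subset _ _
  have hI₁A : I₁ ⊆ A := hI₁A'.trans hA'A
  have hI₀A : I₀ ⊆ A := hI₀A'.trans hA'A
  have hFcA : Fc ⊆ A := by
    intro i hi
    rcases Finset.mem_insert.mp hi with h1 | h1
    · rw [h1]; exact hi₀
    · exact hA'A (hfνA i h1)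
  have hd10 : Disjoint I₁ I₀ := by
    rw [Finset.disjoint_left]
    intro i h1 h2
    have h3 := (Finset.mem_filter.mp h1).2
    have h4 := (Finset.mem_filter.mp h2).2
    rw [h3] at h4
    exact one_ne_zero h4
  have hd1F : Disjoint I₁ Fc := by
    rw [Finset.disjoint_left]
    intro i h1 h2
    have h3 := Finset.mem_filter.mp h1
    rcases Finset.mem_insert.mp h2 with h4 | h4
    · exact hA'ne i h3.1 h4
    · have h5 := (mem_fl.mp h4).2.2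
      linarith [h3.2]
  have hd0F : Disjoint I₀ Fc := by
    rw [Finset.disjoint_left]
    intro i h1 h2
    have h3 := Finset.mem_filter.mp h1
    rcases Finset.mem_insert.mp h2 with h4 | h4
    · exact hA'ne i h3.1 h4
    · have h5 := (mem_fl.mp h4).2.1
      linarith [h3.2]
  have hU : I₁ ∪ Fc ∪ I₀ = A := by
    apply Finset.Subset.antisymm
    · exact Finset.union_subset (Finset.union_subset hI₁A hFcA) hI₀A
    · intro i hi
      by_cases h1 : i = i₀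
      · rw [h1]
        exact Finset.mem_union_left _ (Finset.mem_union_right _ (Finset.mem_insert_self _ _))
      · have hi' : i ∈ A' := Finset.mem_erase.mpr ⟨h1, hi⟩
        by_cases h2 : i ∈ fν
        · exact Finset.mem_union_left _ (Finset.mem_union_right _ (Finset.mem_insert_of_mem h2))
        · rcases cube_off hi' (hν i hi') h2 with h3 | h3
          · exact Finset.mem_union_right _ (Finset.mem_filter.mpr ⟨hi', h3⟩)
          · exact Finset.mem_union_left _ (Finset.mem_union_left _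
              (Finset.mem_filter.mpr ⟨hi', h3⟩))
  have hFccard : Fc.card ≤ 2 * cH + 3 := by
    have h1 : Fc.card ≤ fν.card + 1 := Finset.card_insert_le _ _
    omega
  have hνtFc : ∀ i ∈ Fc, 0 ≤ νt i ∧ νt i ≤ 1 := by
    intro i hi
    simp only [hνt]
    split_ifs with h1
    · constructor <;> linarith [(hnb2 i).1, (hnb2 i).2]
    · rcases Finset.mem_insert.mp hi with h2 | h2
      · exact absurd h2 h1
      · exact hν i (hfνA i h2)
  -- the error vector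
  set e : E := ∑ i ∈ A', (ν i - nb i) • x i with he
  have hek : ∀ k, ⟪b k, e⟫ = ∑ i ∈ A', (ν i - nb i) * ⟪b k, x i⟫ := by
    intro k
    rw [he, inner_sum]
    exact Finset.sum_congr rfl (fun i _ => by rw [inner_smul_right])
  have hsum : ∑ i ∈ I₁, x i = ∑ i ∈ A, nb i • x i + e - ∑ i ∈ Fc, νt i • x i := by
    have h1 : ∑ i ∈ A, nb i • x i = nb i₀ • x i₀ + ∑ i ∈ A', nb i • x i :=
      (Finset.add_sum_erase A (fun i => nb i • x i) hi₀).symm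
    have h2 : e = ∑ i ∈ A', ν i • x i - ∑ i ∈ A', nb i • x i := by
      rw [he, ← Finset.sum_sub_distrib]
      exact Finset.sum_congr rfl (fun i _ => by rw [sub_smul])
    have h3 : ∑ i ∈ Fc, νt i • x i = nb i₀ • x i₀ + ∑ i ∈ fν, ν i • x i := by
      rw [hFc, Finset.sum_insert hi₀fν]
      congr 1
      · simp [hνt]
      · refine Finset.sum_congr rfl (fun i hi => ?_)
        have : i ≠ i₀ := hA'ne i (hfνA i hi)
        simp [hνt, this]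
    have h4 : ∑ i ∈ A', ν i • x i = ∑ i ∈ I₁, x i + ∑ i ∈ fν, ν i • x i := by
      have h5 : ∀ i ∈ A', ν i • x i = (if i ∈ I₁ then x i else 0) +
          (if i ∈ fν then ν i • x i else 0) := by
        intro i hi
        by_cases h6 : i ∈ fν
        · have h7 : i ∉ I₁ := fun h8 => by
            have h9 := (Finset.mem_filter.mp h8).2
            have h10 := (mem_fl.mp h6).2.2
            linarith
          rw [if_neg h7, if_pos h6, zero_add]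
        · rcases cube_off hi (hν i hi) h6 with h7 | h7
          · have h8 : i ∉ I₁ := fun h9 => by
              have h10 := (Finset.mem_filter.mp h9).2
              rw [h7] at h10
              exact zero_ne_one h10
            rw [if_neg h8, if_neg h6, h7]
            simp
          · have h8 : i ∈ I₁ := Finset.mem_filter.mpr ⟨hi, h7⟩
            rw [if_pos h8, if_neg h6, h7]
            simp
      rw [Finset.sum_congr rfl h5, Finset.sum_add_distrib, Finset.sum_ite_mem, Finset.sum_ite_mem,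
        Finset.inter_eq_right.mpr hI₁A', Finset.inter_eq_right.mpr
          (show fν ⊆ A' from fun i hi => hfνA i hi)]
    rw [h1, h2, h3, h4]
    abel
  have hye : ⟪y, e⟫ = 0 := by
    have h1 := hLe yf (Finset.mem_insert_self _ _)
    rw [← h1, he, inner_sum]
    exact Finset.sum_congr rfl (fun i _ => by rw [inner_smul_right]; ring)
  have hQe : PB w S ρ (9 * (3 * (cH : ℝ) + 6)) (fun k => ⟪b k, e⟫) := by
    intro a j ha0 hav hsupp
    refine (hQ a j ha0 hav hsupp).trans ?_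
    apply mul_le_mul_of_nonneg_right _ (by positivity)
    linarith
  have hzero : ∀ k, (∀ i ∈ A, ⟪b k, x i⟫ = 0) → ⟪b k, e⟫ = 0 := by
    intro k hk
    rw [hek]
    apply Finset.sum_eq_zero
    intro i hi
    rw [hk i (hA'A hi), mul_zero]
  -- balance
  set νb : ι → ℝ := fun i => if i = i₀ then nb i else ν₁ i with hνb
  set F := insert i₀ (fl A' ν₁) with hF
  have hFA : F ⊆ A := by
    intro i hi
    rcases Finset.mem_insert.mp hi with h1 | h1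
    · rw [h1]; exact hi₀
    · exact hA'A (mem_fl.mp h1).1
  have hFcard : F.card ≤ 2 * (cH + n + n ^ 2) + 1 := by
    have h1 : F.card ≤ (fl A' ν₁).card + 1 := Finset.card_insert_le _ _
    have h2 : 2 * (L₀.card + n + n ^ 2) ≤ 2 * (cH + n + n ^ 2) := by omega
    omega
  have hνbv : ∀ v, ∑ i ∈ A, (νb i - nb i) * ⟪x i, v⟫ ^ 2 = 0 := by
    intro v
    rw [← Finset.add_sum_erase A _ hi₀]
    have h1 : νb i₀ - nb i₀ = 0 := by simp [hνb]
    rw [h1, zero_mul, zero_add, ← hbalv v]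
    refine Finset.sum_congr rfl (fun i hi => ?_)
    have h2 : i ≠ i₀ := hA'ne i hi
    simp [hνb, h2]
  have hνbc : ∀ i ∈ A, 0 ≤ νb i ∧ νb i ≤ 1 := by
    intro i hi
    simp only [hνb]
    split_ifs with h1
    · constructor <;> linarith [(hnb2 i).1, (hnb2 i).2]
    · exact hν₁ i (Finset.mem_erase.mpr ⟨h1, hi⟩)
  set χ₁ : ι → ℝ := fun i => if i ∈ I₁ then 1 else 0 with hχ₁
  set χ₀ : ι → ℝ := fun i => if i ∈ I₀ then 1 else 0 with hχ₀
  have hoffcase : ∀ i ∈ A, i ∉ F → i ∈ A' ∧ ν i = ν₁ i ∧ (ν₁ i = 0 ∨ ν₁ i = 1) ∧ νb i = ν₁ i := by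
    intro i hi hiF
    have h1 : i ≠ i₀ := fun h2 => hiF (by rw [h2]; exact Finset.mem_insert_self _ _)
    have hi' : i ∈ A' := Finset.mem_erase.mpr ⟨h1, hi⟩
    have h2 : i ∉ fl A' ν₁ := fun h3 => hiF (Finset.mem_insert_of_mem h3)
    refine ⟨hi', hoff i h2, cube_off hi' (hν₁ i hi') h2, ?_⟩
    simp [hνb, h1]
  have hoff₁ : ∀ i ∈ A, i ∉ F → χ₁ i = νb i := by
    intro i hi hiF
    obtain ⟨hi', h1, h2, h3⟩ := hoffcase i hi hiF
    rw [h3]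
    simp only [hχ₁]
    rcases h2 with h4 | h4
    · have h5 : i ∉ I₁ := fun h6 => by
        have h7 := (Finset.mem_filter.mp h6).2
        rw [h1, h4] at h7
        exact zero_ne_one h7
      rw [if_neg h5, h4]
    · have h5 : i ∈ I₁ := Finset.mem_filter.mpr ⟨hi', by rw [h1, h4]⟩
      rw [if_pos h5, h4]
  have hoff₀ : ∀ i ∈ A, i ∉ F → χ₀ i = 1 - νb i := by
    intro i hi hiF
    obtain ⟨hi', h1, h2, h3⟩ := hoffcase i hi hiF
    rw [h3]
    simp only [hχ₀]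
    rcases h2 with h4 | h4
    · have h5 : i ∈ I₀ := Finset.mem_filter.mpr ⟨hi', by rw [h1, h4]⟩
      rw [if_pos h5, h4]
      norm_num
    · have h5 : i ∉ I₀ := fun h6 => by
        have h7 := (Finset.mem_filter.mp h6).2
        rw [h1, h4] at h7
        exact one_ne_zero h7
      rw [if_neg h5, h4]
      norm_num
  have hbal1 : ∀ v, ⟪rkS x I₁ v, v⟫ = (1 / 2) * ⟪rkS x A v, v⟫ +
      (-1) * ∑ i ∈ A, ⟪x i, h⟫ * ⟪x i, v⟫ ^ 2 + ∑ i ∈ F, (χ₁ i - νb i) * ⟪x i, v⟫ ^ 2 := by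
    intro v
    rw [bal_gen x hI₁A χ₁ νb nb hFA (fun _ _ => rfl) hνbv hoff₁ v, hnbdef, nbv_sum]
  have hbal0 : ∀ v, ⟪rkS x I₀ v, v⟫ = (1 / 2) * ⟪rkS x A v, v⟫ +
      1 * ∑ i ∈ A, ⟪x i, h⟫ * ⟪x i, v⟫ ^ 2 + ∑ i ∈ F, (χ₀ i - (1 - νb i)) * ⟪x i, v⟫ ^ 2 := by
    intro v
    have h1 := bal_gen x hI₀A χ₀ (fun i => 1 - νb i) (fun i => 1 - nb i) hFA (fun _ _ => rfl)
      (fun u => by
        have h3 : ∑ i ∈ A, ((1 - νb i) - (1 - nb i)) * ⟪x i, u⟫ ^ 2 =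
            - ∑ i ∈ A, (νb i - nb i) * ⟪x i, u⟫ ^ 2 := by
          rw [← Finset.sum_neg_distrib]
          exact Finset.sum_congr rfl (fun i _ => by ring)
        rw [h3, hνbv u, neg_zero]) hoff₀ v
    rw [h1, hnbdef, nbv_sum']
  -- bounds on the coefficients
  have hχ₁01 : ∀ i, χ₁ i = 0 ∨ χ₁ i = 1 := by
    intro i
    simp only [hχ₁]
    split_ifs
    · exact Or.inr rfl
    · exact Or.inl rfl
  have hχ₀01 : ∀ i, χ₀ i = 0 ∨ χ₀ i = 1 := by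
    intro i
    simp only [hχ₀]
    split_ifs
    · exact Or.inr rfl
    · exact Or.inl rfl
  have ha₁ : ∀ i ∈ F, |χ₁ i - νb i| ≤ 1 := by
    intro i hi
    have h1 := hνbc i (hFA hi)
    rw [abs_le]
    rcases hχ₁01 i with h2 | h2 <;> rw [h2] <;> constructor <;> linarith [h1.1, h1.2]
  have ha₀ : ∀ i ∈ F, |χ₀ i - (1 - νb i)| ≤ 1 := by
    intro i hi
    have h1 := hνbc i (hFA hi)
    rw [abs_le]
    rcases hχ₀01 i with h2 | h2 <;> rw [h2] <;> constructor <;> linarith [h1.1, h1.2]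
  -- the block
  have hblockz : ∀ v, (∀ k, k ∉ Ac → ⟪b k, v⟫ = 0) →
      ∑ i ∈ A', (ν i - nb i) * ⟪x i, v⟫ ^ 2 = 0 := by
    intro v hv
    have h1 : ∀ i, ⟪x i, v⟫ ^ 2 = ∑ k ∈ Ac, ∑ l ∈ Ac, ⟪b k, v⟫ * ⟪b l, v⟫ * (c k i * c l i) := by
      intro i
      have h2 : ⟪x i, v⟫ = ∑ k ∈ Ac, c k i * ⟪b k, v⟫ := by
        rw [inner_eq_sum b]
        symm
        apply Finset.sum_subset (Finset.subset_univ _)
        intro k _ hk
        rw [hv k hk, mul_zero]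
      rw [sq, h2, Finset.sum_mul_sum]
      refine Finset.sum_congr rfl (fun k _ => Finset.sum_congr rfl (fun l _ => ?_))
      ring
    simp_rw [h1, Finset.mul_sum]
    rw [Finset.sum_comm]
    apply Finset.sum_eq_zero
    intro k hk
    rw [Finset.sum_comm]
    apply Finset.sum_eq_zero
    intro l hl
    have hmem : (fun i => c k i * c l i) ∈ L₂ := by
      rw [hL₂]
      exact Finset.mem_image.mpr ⟨(k, l), Finset.mem_product.mpr ⟨hk, hl⟩, rfl⟩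
    have h3 := hLe (fun i => c k i * c l i) (Finset.mem_insert_of_mem hmem)
    calc _ = ⟪b k, v⟫ * ⟪b l, v⟫ * ∑ i ∈ A', (c k i * c l i) * (ν i - nb i) := by
          rw [Finset.mul_sum]
          exact Finset.sum_congr rfl (fun i _ => by ring)
      _ = 0 := by rw [h3, mul_zero]
  have hblock1 : ∀ v, (∀ k, k ∉ Ac → ⟪b k, v⟫ = 0) →
      ∑ i ∈ F, (χ₁ i - νb i) * ⟪x i, v⟫ ^ 2 ≤ 0 := by
    intro v hv
    have h1 : ∑ i ∈ F, (χ₁ i - νb i) * ⟪x i, v⟫ ^ 2 = ∑ i ∈ A, (χ₁ i - νb i) * ⟪x i, v⟫ ^ 2 := by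
      apply Finset.sum_subset hFA
      intro i hi hiF
      rw [hoff₁ i hi hiF]
      simp
    rw [h1, ← Finset.add_sum_erase A _ hi₀]
    have h2 : χ₁ i₀ - νb i₀ ≤ 0 := by
      have h3 : i₀ ∉ I₁ := fun h4 => hA'ne i₀ (hI₁A' h4) rfl
      simp only [hχ₁, hνb, if_neg h3, if_true]
      linarith [(hnb2 i₀).1]
    have h4 : ∑ i ∈ A', (χ₁ i - νb i) * ⟪x i, v⟫ ^ 2 = ∑ i ∈ A', (χ₁ i - ν i) * ⟪x i, v⟫ ^ 2 +
        ∑ i ∈ A', (ν i - nb i) * ⟪x i, v⟫ ^ 2 - ∑ i ∈ A', (ν₁ i - nb i) * ⟪x i, v⟫ ^ 2 := by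
      rw [← Finset.sum_add_distrib, ← Finset.sum_sub_distrib]
      refine Finset.sum_congr rfl (fun i hi => ?_)
      have h5 : i ≠ i₀ := hA'ne i hi
      simp only [hνb, if_neg h5]
      ring
    rw [h4, hblockz v hv, hbalv v, add_zero, sub_zero]
    have h6 : ∑ i ∈ A', (χ₁ i - ν i) * ⟪x i, v⟫ ^ 2 ≤ 0 := by
      apply Finset.sum_nonpos
      intro i hi
      apply mul_nonpos_of_nonpos_of_nonneg _ (sq_nonneg _)
      simp only [hχ₁]
      split_ifs with h7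
      · have h8 := (Finset.mem_filter.mp h7).2
        linarith
      · linarith [(hν i hi).1]
    have h9 := mul_nonpos_of_nonpos_of_nonneg h2 (sq_nonneg ⟪x i₀, v⟫)
    linarith
  have hblock0 : ∀ v, (∀ k, k ∉ Ac → ⟪b k, v⟫ = 0) →
      ∑ i ∈ F, (χ₀ i - (1 - νb i)) * ⟪x i, v⟫ ^ 2 ≤ 0 := by
    intro v hv
    have h1 : ∑ i ∈ F, (χ₀ i - (1 - νb i)) * ⟪x i, v⟫ ^ 2 =
        ∑ i ∈ A, (χ₀ i - (1 - νb i)) * ⟪x i, v⟫ ^ 2 := by
      apply Finset.sum_subset hFA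
      intro i hi hiF
      rw [hoff₀ i hi hiF]
      simp
    rw [h1, ← Finset.add_sum_erase A _ hi₀]
    have h2 : χ₀ i₀ - (1 - νb i₀) ≤ 0 := by
      have h3 : i₀ ∉ I₀ := fun h4 => hA'ne i₀ (hI₀A' h4) rfl
      simp only [hχ₀, hνb, if_neg h3, if_true]
      linarith [(hnb2 i₀).2]
    have h4 : ∑ i ∈ A', (χ₀ i - (1 - νb i)) * ⟪x i, v⟫ ^ 2 =
        ∑ i ∈ A', (χ₀ i - (1 - ν i)) * ⟪x i, v⟫ ^ 2 -
        ∑ i ∈ A', (ν i - nb i) * ⟪x i, v⟫ ^ 2 + ∑ i ∈ A', (ν₁ i - nb i) * ⟪x i, v⟫ ^ 2 := by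
      rw [← Finset.sum_sub_distrib, ← Finset.sum_add_distrib]
      refine Finset.sum_congr rfl (fun i hi => ?_)
      have h5 : i ≠ i₀ := hA'ne i hi
      simp only [hνb, if_neg h5]
      ring
    rw [h4, hblockz v hv, hbalv v, add_zero, sub_zero]
    have h6 : ∑ i ∈ A', (χ₀ i - (1 - ν i)) * ⟪x i, v⟫ ^ 2 ≤ 0 := by
      apply Finset.sum_nonpos
      intro i hi
      apply mul_nonpos_of_nonpos_of_nonneg _ (sq_nonneg _)
      simp only [hχ₀]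
      split_ifs with h7
      · have h8 := (Finset.mem_filter.mp h7).2
        linarith
      · linarith [(hν i hi).2]
    have h9 := mul_nonpos_of_nonpos_of_nonneg h2 (sq_nonneg ⟪x i₀, v⟫)
    linarith
  exact ⟨I₁, I₀, Fc, νt, e, fun i => χ₁ i - νb i, fun i => χ₀ i - (1 - νb i), F, hI₁A, hI₀A, hFcA,
    hd10, hd1F, hd0F, hU, Finset.mem_insert_self _ _, hFccard, hνtFc, hsum, hye, hQe, hzero, hbal1,
    hbal0, hFA, hFcard, ha₁, ha₀, hblock1, hblock0⟩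

end Vale.Agent.Lib.P262.V
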