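import Vale.Agent.Lib.P262.V.Sched

/-!
A strict rank along a monotone function, and the summation by blocks.
-/

open scoped BigOperators
open Module

set_option linter.unusedSectionVars false

namespace Vale.Agent.Lib.P262.V

variable {α : Type*} [DecidableEq α]

/-- A strict rank for a real function on a finite set. -/
lemma exists_rank (Th : Finset α) (μ : α → ℝ) :
    ∃ r : α → ℕ, (∀ k ∈ Th, r k < Th.card) ∧ Set.InjOn r Th ∧
      (∀ k ∈ Th, ∀ l ∈ Th, r l ≤ r k → μ l ≤ μ k) := by
  classical
  induction Th using Finset.induction_on_max_value μ with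
  | empty =>
    refine ⟨fun _ => 0, by simp, by simp, by simp⟩
  | insert a s ha hmax ih =>
    obtain ⟨r, h1, h2, h3⟩ := ih
    refine ⟨fun x => if x = a then s.card else r x, ?_, ?_, ?_⟩
    · intro k hk
      rw [Finset.card_insert_of_notMem ha]
      by_cases hka : k = a
      · simp [hka]
      · have hks : k ∈ s := by
          rcases Finset.mem_insert.mp hk with h | h
          · exact absurd h hka
          · exact h
        simp only [if_neg hka]
        have := h1 k hks
        omega
    · intro k hk l hl hkl
      simp only [Finset.mem_coe] at hk hl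
      simp only at hkl
      by_cases hka : k = a
      · by_cases hla : l = a
        · rw [hka, hla]
        · have hls : l ∈ s := by
            rcases Finset.mem_insert.mp hl with h | h
            · exact absurd h hla
            · exact h
          rw [if_pos hka, if_neg hla] at hkl
          have := h1 l hls
          omega
      · have hks : k ∈ s := by
          rcases Finset.mem_insert.mp hk with h | h
          · exact absurd h hka
          · exact h
        by_cases hla : l = a
        · rw [if_neg hka, if_pos hla] at hkl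
          have := h1 k hks
          omega
        · have hls : l ∈ s := by
            rcases Finset.mem_insert.mp hl with h | h
            · exact absurd h hla
            · exact h
          rw [if_neg hka, if_neg hla] at hkl
          exact h2 hks hls hkl
    · intro k hk l hl hlk
      simp only at hlk
      by_cases hka : k = a
      · rw [hka]
        by_cases hla : l = a
        · rw [hla]
        · have hls : l ∈ s := by
            rcases Finset.mem_insert.mp hl with h | h
            · exact absurd h hla
            · exact h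
          exact hmax l hls
      · have hks : k ∈ s := by
          rcases Finset.mem_insert.mp hk with h | h
          · exact absurd h hka
          · exact h
        by_cases hla : l = a
        · rw [if_neg hka, if_pos hla] at hlk
          have := h1 k hks
          omega
        · have hls : l ∈ s := by
            rcases Finset.mem_insert.mp hl with h | h
            · exact absurd h hla
            · exact h
          rw [if_neg hka, if_neg hla] at hlk
          exact h3 k hks l hls hlk

section rank

variable {Th : Finset α} {r : α → ℕ}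

lemma rank_image (hr1 : ∀ k ∈ Th, r k < Th.card) (hr2 : Set.InjOn r Th) :
    Th.image r = Finset.range Th.card := by
  apply Finset.eq_of_subset_of_card_le
  · intro y hy
    obtain ⟨k, hk, rfl⟩ := Finset.mem_image.mp hy
    exact Finset.mem_range.mpr (hr1 k hk)
  · rw [Finset.card_range, Finset.card_image_of_injOn hr2]

lemma rank_filter_le (hr2 : Set.InjOn r Th) (m : ℕ) : (Th.filter (fun k => r k < m)).card ≤ m := by
  have h1 : Set.InjOn r (Th.filter (fun k => r k < m)) :=
    hr2.mono (by
      intro x hx
      exact (Finset.mem_filter.mp hx).1)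
  rw [← Finset.card_image_of_injOn h1]
  calc _ ≤ (Finset.range m).card := by
        apply Finset.card_le_card
        intro y hy
        obtain ⟨k, hk, rfl⟩ := Finset.mem_image.mp hy
        exact Finset.mem_range.mpr (Finset.mem_filter.mp hk).2
    _ = m := Finset.card_range m

lemma rank_filter_card (hr1 : ∀ k ∈ Th, r k < Th.card) (hr2 : Set.InjOn r Th) {m : ℕ}
    (hm : m ≤ Th.card) : (Th.filter (fun k => r k < m)).card = m := by
  apply le_antisymm (rank_filter_le hr2 m)
  have h1 : Finset.range m ⊆ (Th.filter (fun k => r k < m)).image r := by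
    intro y hy
    have hy' := Finset.mem_range.mp hy
    have h2 : y ∈ Th.image r := by
      rw [rank_image hr1 hr2]
      exact Finset.mem_range.mpr (by omega)
    obtain ⟨k, hk, rfl⟩ := Finset.mem_image.mp h2
    exact Finset.mem_image.mpr ⟨k, Finset.mem_filter.mpr ⟨hk, hy'⟩, rfl⟩
  have h2 := Finset.card_le_card h1
  rw [Finset.card_range] at h2
  exact h2.trans Finset.card_image_le

end rank

/-- Comparison of two blocks. -/
lemma block_le (D D' : Finset α) (f a : α → ℝ) (hf0 : ∀ k, 0 ≤ f k) (ha : ∀ k, 0 ≤ a k) {C : ℝ}
    (hC : 0 ≤ C) (hmono : ∀ k ∈ D, ∀ l ∈ D', f k ≤ f l) (hsum : ∑ k ∈ D, a k ≤ C * (D'.card : ℝ)) :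
    ∑ k ∈ D, f k * a k ≤ C * ∑ k ∈ D', f k := by
  by_cases hne : D'.Nonempty
  · obtain ⟨l₀, hl₀, hmin⟩ := Finset.exists_min_image D' f hne
    have h1 : ∑ k ∈ D, f k * a k ≤ ∑ k ∈ D, f l₀ * a k :=
      Finset.sum_le_sum (fun k hk => mul_le_mul_of_nonneg_right (hmono k hk l₀ hl₀) (ha k))
    have h2 : ∑ k ∈ D, f l₀ * a k = f l₀ * ∑ k ∈ D, a k := by rw [Finset.mul_sum]
    have h3 : f l₀ * ∑ k ∈ D, a k ≤ f l₀ * (C * (D'.card : ℝ)) :=
      mul_le_mul_of_nonneg_left hsum (hf0 l₀)
    have h4 : (D'.card : ℝ) * f l₀ ≤ ∑ k ∈ D', f k := by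
      have := Finset.card_nsmul_le_sum D' f (f l₀) (fun k hk => hmin k hk)
      rwa [nsmul_eq_mul] at this
    have h5 := mul_le_mul_of_nonneg_left h4 hC
    nlinarith
  · rw [Finset.not_nonempty_iff_eq_empty] at hne
    rw [hne] at hsum ⊢
    simp only [Finset.card_empty, Nat.cast_zero, mul_zero, Finset.sum_empty] at hsum ⊢
    have h0 : ∑ k ∈ D, a k = 0 := le_antisymm hsum (Finset.sum_nonneg (fun k _ => ha k))
    have h1 := (Finset.sum_eq_zero_iff_of_nonneg (fun k _ => ha k)).mp h0
    apply le_of_eq
    apply Finset.sum_eq_zero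
    intro k hk
    rw [h1 k hk, mul_zero]

/-- Summation by blocks: a prefix bound gives a bound for all the monotone weights. -/
lemma abel_form (Th : Finset α) (r : α → ℕ) (hr1 : ∀ k ∈ Th, r k < Th.card)
    (hr2 : Set.InjOn r Th) (f a : α → ℝ) (hf0 : ∀ k, 0 ≤ f k) (ha : ∀ k, 0 ≤ a k)
    (hf : ∀ k ∈ Th, ∀ l ∈ Th, r l ≤ r k → f k ≤ f l) {C : ℝ} (hC : 0 ≤ C)
    (hpre : ∀ j, ∑ k ∈ Th.filter (fun k => r k < 2 ^ j), a k ≤ C * 2 ^ j) :
    ∑ k ∈ Th, f k * a k ≤ 8 * C * ∑ k ∈ Th, f k := by
  classical
  set Q : ℕ → Finset α := fun j => Th.filter (fun k => r k < 2 ^ j) with hQ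
  have hQsub : ∀ j, Q j ⊆ Q (j + 1) := by
    intro j k hk
    have h1 := Finset.mem_filter.mp hk
    refine Finset.mem_filter.mpr ⟨h1.1, ?_⟩
    have h2 : 2 ^ j ≤ 2 ^ (j + 1) := Nat.pow_le_pow_right (by norm_num) (by omega)
    omega
  have hQTh : ∀ j, Q j ⊆ Th := fun j => Finset.filter_subset _ _
  have h8C : 0 ≤ 8 * C := by positivity
  have hmain : ∀ j, ∑ k ∈ Q (j + 1), f k * a k ≤ 8 * C * ∑ k ∈ Q j, f k := by
    intro j
    induction j with
    | zero =>
      apply block_le _ _ f a hf0 ha h8C
      · intro k hk l hl
        have h1 := Finset.mem_filter.mp hk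
        have h2 := Finset.mem_filter.mp hl
        apply hf k h1.1 l h2.1
        have h3 := h2.2
        norm_num at h3
        omega
      · by_cases hne : (Q (0 + 1)).Nonempty
        · obtain ⟨k, hk⟩ := hne
          have hkT := hQTh _ hk
          have h1 : 1 ≤ Th.card := Finset.card_pos.mpr ⟨k, hkT⟩
          have h2 : (Q 0).card = 1 := by
            have := rank_filter_card hr1 hr2 h1
            simpa [hQ] using this
          rw [h2]
          have h3 := hpre (0 + 1)
          have h4 : ∑ k ∈ Q (0 + 1), a k ≤ C * 2 ^ (0 + 1) := h3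
          norm_num at h4 ⊢
          linarith
        · rw [Finset.not_nonempty_iff_eq_empty] at hne
          rw [hne]
          simp only [Finset.sum_empty]
          positivity
    | succ j ih =>
      set D := Q (j + 1 + 1) \ Q (j + 1) with hD
      set D' := Q (j + 1) \ Q j with hD'
      have h1 : ∑ k ∈ D, f k * a k ≤ 8 * C * ∑ k ∈ D', f k := by
        apply block_le _ _ f a hf0 ha h8C
        · intro k hk l hl
          have h2 := Finset.mem_sdiff.mp hk
          have h3 := Finset.mem_sdiff.mp hl
          have h4 := Finset.mem_filter.mp h2.1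
          have h5 := Finset.mem_filter.mp h3.1
          have h6 : ¬ r k < 2 ^ (j + 1) := fun h => h2.2 (Finset.mem_filter.mpr ⟨h4.1, h⟩)
          apply hf k h4.1 l h5.1
          have h7 := h5.2
          omega
        · by_cases hne : D.Nonempty
          · obtain ⟨k, hk⟩ := hne
            have h2 := Finset.mem_sdiff.mp hk
            have h4 := Finset.mem_filter.mp h2.1
            have h6 : ¬ r k < 2 ^ (j + 1) := fun h => h2.2 (Finset.mem_filter.mpr ⟨h4.1, h⟩)
            have h7 := hr1 k h4.1
            have h8 : 2 ^ (j + 1) ≤ Th.card := by omega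
            have h9 : 2 ^ j ≤ Th.card := by
              have : 2 ^ j ≤ 2 ^ (j + 1) := Nat.pow_le_pow_right (by norm_num) (by omega)
              omega
            have h10 : (Q (j + 1)).card = 2 ^ (j + 1) := rank_filter_card hr1 hr2 h8
            have h11 : (Q j).card = 2 ^ j := rank_filter_card hr1 hr2 h9
            have h12 : (D'.card : ℝ) = 2 ^ j := by
              have h13 : D'.card = 2 ^ j := by
                rw [hD', Finset.card_sdiff_of_subset (hQsub j), h10, h11, pow_succ]
                omega
              rw [h13]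
              push_cast
              rfl
            rw [h12]
            have h13 : ∑ k ∈ D, a k ≤ ∑ k ∈ Q (j + 1 + 1), a k :=
              Finset.sum_le_sum_of_subset_of_nonneg Finset.sdiff_subset (fun k _ _ => ha k)
            have h14 : ∑ k ∈ Q (j + 1 + 1), a k ≤ C * 2 ^ (j + 1 + 1) := hpre (j + 1 + 1)
            have h15 : C * 2 ^ (j + 1 + 1) = 4 * C * 2 ^ j := by
              rw [pow_succ, pow_succ]
              ring
            have h16 : (0 : ℝ) ≤ C * 2 ^ j := by positivity
            linarith
          · rw [Finset.not_nonempty_iff_eq_empty] at hne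
            rw [hne]
            simp only [Finset.sum_empty]
            positivity
      have h2 : ∑ k ∈ Q (j + 1 + 1), f k * a k = ∑ k ∈ D, f k * a k + ∑ k ∈ Q (j + 1), f k * a k :=
        (Finset.sum_sdiff (hQsub (j + 1))).symm
      have h3 : ∑ k ∈ Q (j + 1), f k = ∑ k ∈ D', f k + ∑ k ∈ Q j, f k :=
        (Finset.sum_sdiff (hQsub j)).symm
      rw [h2, h3, mul_add]
      linarith
  have hall : Q (Th.card + 1) = Th := by
    apply Finset.filter_true_of_mem
    intro k hk
    have h1 := hr1 k hk
    have h2 : Th.card < 2 ^ Th.card := Nat.lt_two_pow_self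
    have h3 : 2 ^ Th.card ≤ 2 ^ (Th.card + 1) := Nat.pow_le_pow_right (by norm_num) (by omega)
    omega
  have h1 := hmain Th.card
  rw [hall] at h1
  refine h1.trans ?_
  apply mul_le_mul_of_nonneg_left _ h8C
  exact Finset.sum_le_sum_of_subset_of_nonneg (hQTh _) (fun k _ _ => hf0 k)

end Vale.Agent.Lib.P262.V
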