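import Vale.Agent.Lib.P262.U.NodeB
import Vale.Agent.Lib.P262.V.Rank

/-!
The parameters of the construction and the full potential.
-/

open scoped RealInnerProductSpace BigOperators
open Module

set_option linter.unusedSectionVars false

namespace Vale.Agent.Lib.P262.V

open Vale.Agent.Lib.P262.U

/-- The three free numbers of the construction. -/
structure Par where
  n : ℕ
  ρ : ℕ
  e : ℕ

/-- The constant of the walk. -/
noncomputable def CE : ℝ := 9 * (3 * (cH : ℝ) + 6)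

/-- The constant in the level payment. -/
noncomputable def Cw : ℝ := 331776

namespace Par

variable (P : Par)

/-- The floor. -/
noncomputable def g : ℝ := 2 ^ P.e
/-- The thick cut. -/
noncomputable def E₂ : ℝ := 32 * P.g
/-- Floating count for the balance. -/
def D : ℕ := 2 * (cH + P.n + P.n ^ 2) + 1
/-- Rounding budget. -/
noncomputable def B (_P : Par) : ℝ := 16 * CE
/-- Thick cost. -/
noncomputable def CT : ℝ := 18 * P.B + 22 * C₃ ^ 2
/-- Soft cost. -/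
noncomputable def CS : ℝ := 36 * P.B + 13 * C₃ ^ 2
/-- Weight of the trace part. -/
noncomputable def β : ℝ := 5 / 2 * P.CT
/-- Weight of scale `s`. -/
noncomputable def ws (s : ℕ) : ℝ := Cw * P.CS * (1 / 4) ^ s
/-- Grid length at scale `s`. -/
def J (s : ℕ) : ℕ := P.e + 9 + 2 * s + 6 * P.ρ
/-- Grid bottom at scale `s`. -/
noncomputable def κm (s : ℕ) : ℝ := (1 / 2) ^ (2 * s + 4 + 6 * P.ρ)
/-- Grid sum at scale `s`. -/
noncomputable def Lev {E : Type*} [NormedAddCommGroup E] [InnerProductSpace ℝ E]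
    [FiniteDimensional ℝ E] (T : E →ₗ[ℝ] E) (s : ℕ) : ℝ := Gs T (P.κm s) (P.J s)
/-- The level part of the potential. -/
noncomputable def Φl {E : Type*} [NormedAddCommGroup E] [InnerProductSpace ℝ E]
    [FiniteDimensional ℝ E] (T : E →ₗ[ℝ] E) : ℝ := ∑' s, P.ws s * P.Lev T s
/-- The potential. -/
noncomputable def Φ {E : Type*} [NormedAddCommGroup E] [InnerProductSpace ℝ E]
    [FiniteDimensional ℝ E] (T : E →ₗ[ℝ] E) : ℝ := P.Φl T + P.β * psi T P.g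
/-- The budget. -/
noncomputable def F : ℝ := (P.n : ℝ) * (P.β + 4 * Cw * P.CS * ((P.J 0 : ℝ) + 1))
/-- Square of the bound for the first components. -/
noncomputable def Ru2 : ℝ := 2 * P.F + 18 * (P.n : ℝ) * P.B + 12 * C₃ ^ 2
/-- Bound for the first components. -/
noncomputable def Ru : ℝ := Real.sqrt P.Ru2
/-- Steering precision. -/
noncomputable def ζ : ℝ := P.Ru / Real.sqrt P.g
/-- Inverse cube of the dimension. -/
noncomputable def η : ℝ := 1 / (P.n : ℝ) ^ 3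

/-- The inequalities needed of the parameters. -/
structure Adm : Prop where
  hn : 1 ≤ P.n
  hρ1 : P.n ≤ 2 ^ P.ρ
  hρ2 : 2 ^ P.ρ ≤ 2 * P.n
  hRu : P.Ru2 * (P.n : ℝ) ^ 6 ≤ P.g
  hDE : 8 * (P.D : ℝ) * (P.n : ℝ) ^ 6 ≤ P.E₂
  hξ : 2 * (P.D : ℝ) / P.g + 7 * P.ζ / Real.sqrt P.g ≤ 1 / 20
  hu : 4 * P.Ru ≤ P.g
  h2D : 2 * (P.D : ℝ) ≤ P.g
  h7 : 7 * P.ζ ≤ Real.sqrt P.g
  hE : 8192 ≤ P.E₂

lemma C₃_pos : 0 < C₃ := by
  unfold C₃
  positivity

lemma CE_pos : 0 < CE := by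
  unfold CE
  positivity

lemma Cw_pos : 0 < Cw := by
  unfold Cw
  positivity

variable {P}

lemma g_pos : 0 < P.g := by
  unfold g
  positivity

lemma E₂_pos : 0 < P.E₂ := by
  unfold E₂
  have := g_pos (P := P)
  positivity

lemma one_le_g : 1 ≤ P.g := one_le_pow₀ (by norm_num)

lemma B_pos : 0 < P.B := by
  unfold B
  have := CE_pos
  positivity

lemma CT_pos : 0 < P.CT := by
  unfold CT
  have := B_pos (P := P)
  positivity

lemma CS_pos : 0 < P.CS := by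
  unfold CS
  have := B_pos (P := P)
  positivity

lemma β_pos : 0 < P.β := by
  unfold β
  have := CT_pos (P := P)
  positivity

lemma ws_pos (s : ℕ) : 0 < P.ws s := by
  unfold ws
  have := CS_pos (P := P)
  have := Cw_pos
  positivity

lemma κm_pos (s : ℕ) : 0 < P.κm s := by
  unfold κm
  positivity

lemma κm_top (s : ℕ) : P.κm s * 2 ^ (P.J s + 1) = 2 * P.E₂ := by
  unfold κm J E₂ g
  have h1 : P.e + 9 + 2 * s + 6 * P.ρ + 1 = (2 * s + 4 + 6 * P.ρ) + (P.e + 6) := by ring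
  rw [h1, pow_add (2 : ℝ), ← mul_assoc, ← mul_pow]
  norm_num
  ring

lemma F_nonneg : 0 ≤ P.F := by
  unfold F
  have := β_pos (P := P)
  have := CS_pos (P := P)
  have := Cw_pos
  positivity

lemma Ru2_nonneg : 0 ≤ P.Ru2 := by
  unfold Ru2
  have := F_nonneg (P := P)
  have := B_pos (P := P)
  positivity

lemma Ru_nonneg : 0 ≤ P.Ru := Real.sqrt_nonneg _

lemma Ru_sq : P.Ru ^ 2 = P.Ru2 := Real.sq_sqrt Ru2_nonneg

lemma ζ_nonneg : 0 ≤ P.ζ := by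
  unfold ζ
  exact div_nonneg Ru_nonneg (Real.sqrt_nonneg _)

section pot

variable {E : Type*} [NormedAddCommGroup E] [InnerProductSpace ℝ E] [FiniteDimensional ℝ E]

lemma Lev_nonneg {T : E →ₗ[ℝ] E} (hT : PosOp T) (s : ℕ) : 0 ≤ P.Lev T s :=
  Gs_nonneg hT (κm_pos s) _

lemma Lev_le {T : E →ₗ[ℝ] E} (hT : PosOp T) (hn : finrank ℝ E = P.n) (s : ℕ) :
    P.Lev T s ≤ (P.n : ℝ) * ((P.J s : ℝ) + 1) := by
  have := Gs_le hT (κm_pos (P := P) s) (P.J s)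
  rwa [hn] at this

lemma Lev_mono {T S : E →ₗ[ℝ] E} (hT : PosOp T) (hS : PosOp S) (hle : ∀ w, ⟪T w, w⟫ ≤ ⟪S w, w⟫)
    (s : ℕ) : P.Lev T s ≤ P.Lev S s :=
  Gs_mono hT hS hle (κm_pos s) _

lemma one_add_two_mul_le (s : ℕ) : 1 + 2 * (s : ℝ) ≤ 2 * 2 ^ s := by
  have h : (1 : ℝ) + s ≤ 2 ^ s := by
    have h0 : s + 1 ≤ 2 ^ s := Nat.lt_two_pow_self
    have h1 : ((s + 1 : ℕ) : ℝ) ≤ ((2 ^ s : ℕ) : ℝ) := by exact_mod_cast h0
    push_cast at h1
    linarith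
  linarith

lemma J_cast_le (s : ℕ) : (P.J s : ℝ) + 1 ≤ ((P.J 0 : ℝ) + 1) * (1 + 2 * (s : ℝ)) := by
  have h : (P.J s : ℝ) = (P.J 0 : ℝ) + 2 * (s : ℝ) := by
    unfold J
    push_cast
    ring
  rw [h]
  have h0 : (0 : ℝ) ≤ (P.J 0 : ℝ) := Nat.cast_nonneg _
  have h1 : (0 : ℝ) ≤ (s : ℝ) := Nat.cast_nonneg _
  nlinarith [mul_nonneg h0 h1]

lemma term_le {T : E →ₗ[ℝ] E} (hT : PosOp T) (hn : finrank ℝ E = P.n) (s : ℕ) :
    P.ws s * P.Lev T s ≤ (2 * Cw * P.CS * (P.n : ℝ) * ((P.J 0 : ℝ) + 1)) * (1 / 2) ^ s := by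
  have h1 := Lev_le (P := P) hT hn s
  have h2 := J_cast_le (P := P) s
  have hn0 : (0 : ℝ) ≤ (P.n : ℝ) := Nat.cast_nonneg _
  have hCS := CS_pos (P := P)
  have h3 : P.Lev T s ≤ (P.n : ℝ) * (((P.J 0 : ℝ) + 1) * (1 + 2 * (s : ℝ))) :=
    h1.trans (mul_le_mul_of_nonneg_left h2 hn0)
  have h4 : (1 + 2 * (s : ℝ)) ≤ 2 * 2 ^ s := one_add_two_mul_le s
  have hJ0 : (0 : ℝ) ≤ (P.J 0 : ℝ) + 1 := by positivity
  have h5 : P.Lev T s ≤ (P.n : ℝ) * (((P.J 0 : ℝ) + 1) * (2 * 2 ^ s)) :=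
    h3.trans (mul_le_mul_of_nonneg_left (mul_le_mul_of_nonneg_left h4 hJ0) hn0)
  have h6 : P.ws s * P.Lev T s ≤ P.ws s * ((P.n : ℝ) * (((P.J 0 : ℝ) + 1) * (2 * 2 ^ s))) :=
    mul_le_mul_of_nonneg_left h5 (ws_pos s).le
  refine h6.trans (le_of_eq ?_)
  unfold ws
  have h7 : (1 / 4 : ℝ) ^ s * 2 ^ s = (1 / 2) ^ s := by
    rw [← mul_pow]
    norm_num
  calc Cw * P.CS * (1 / 4) ^ s * ((P.n : ℝ) * (((P.J 0 : ℝ) + 1) * (2 * 2 ^ s)))
      = 2 * Cw * P.CS * (P.n : ℝ) * ((P.J 0 : ℝ) + 1) * ((1 / 4 : ℝ) ^ s * 2 ^ s) := by ring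
    _ = _ := by rw [h7]

lemma term_summable {T : E →ₗ[ℝ] E} (hT : PosOp T) (hn : finrank ℝ E = P.n) :
    Summable (fun s => P.ws s * P.Lev T s) :=
  Summable.of_nonneg_of_le (fun s => mul_nonneg (ws_pos s).le (Lev_nonneg hT s))
    (term_le hT hn) (summable_geometric_two.mul_left _)

lemma Φl_nonneg {T : E →ₗ[ℝ] E} (hT : PosOp T) : 0 ≤ P.Φl T :=
  tsum_nonneg (fun s => mul_nonneg (ws_pos s).le (Lev_nonneg hT s))

lemma Φl_le {T : E →ₗ[ℝ] E} (hT : PosOp T) (hn : finrank ℝ E = P.n) :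
    P.Φl T ≤ 4 * Cw * P.CS * (P.n : ℝ) * ((P.J 0 : ℝ) + 1) := by
  unfold Φl
  have h := (term_summable (P := P) hT hn).tsum_le_tsum (term_le hT hn)
    (summable_geometric_two.mul_left _)
  refine h.trans (le_of_eq ?_)
  rw [tsum_mul_left, tsum_geometric_two]
  ring

/-- Monotonicity and drop of the level part. -/
lemma Φl_drop {T S : E →ₗ[ℝ] E} (hT : PosOp T) (hS : PosOp S) (hle : ∀ w, ⟪T w, w⟫ ≤ ⟪S w, w⟫)
    (hn : finrank ℝ E = P.n) (s : ℕ) :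
    P.ws s * (P.Lev S s - P.Lev T s) ≤ P.Φl S - P.Φl T := by
  unfold Φl
  rw [← (term_summable hS hn).tsum_sub (term_summable hT hn)]
  have hsum : Summable (fun s => P.ws s * P.Lev S s - P.ws s * P.Lev T s) :=
    (term_summable hS hn).sub (term_summable hT hn)
  have h := hsum.le_tsum s (fun t _ => by
    have := mul_le_mul_of_nonneg_left (Lev_mono (P := P) hT hS hle t) (ws_pos (P := P) t).le
    linarith)
  refine le_trans (le_of_eq ?_) h
  ring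

lemma Φl_mono {T S : E →ₗ[ℝ] E} (hT : PosOp T) (hS : PosOp S) (hle : ∀ w, ⟪T w, w⟫ ≤ ⟪S w, w⟫)
    (hn : finrank ℝ E = P.n) : P.Φl T ≤ P.Φl S := by
  have h := Φl_drop (P := P) hT hS hle hn 0
  have h2 := mul_nonneg (ws_pos (P := P) 0).le (sub_nonneg.mpr (Lev_mono (P := P) hT hS hle 0))
  linarith

lemma Φ_le {T : E →ₗ[ℝ] E} (hT : PosOp T) (hn : finrank ℝ E = P.n) : P.Φ T ≤ P.F := by
  unfold Φ F
  have h1 := Φl_le (P := P) hT hn
  have h2 := psi_le hT (g_pos (P := P))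
  rw [hn] at h2
  have h3 := mul_le_mul_of_nonneg_left h2 (β_pos (P := P)).le
  nlinarith

end pot

end Par

end Vale.Agent.Lib.P262.V
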