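import Vale.Agent.Lib.P262.U.Sched

/-!
The dyadic schedule of the walk, with a bound for all weights supported in the masks.
-/

open scoped BigOperators
open Module

set_option linter.unusedSectionVars false

namespace Vale.Agent.Lib.P262.V

open Vale.Agent.Lib.P262.U

variable {ι : Type*} [DecidableEq ι]

/-- The weighted bound for all the weights dominated by `v` that vanish outside the late masks. -/
def PB {K : Type*} [Fintype K] (v : K → ℝ) (S : ℕ → Finset K) (T : ℕ) (C : ℝ) (e : K → ℝ) : Prop :=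
  ∀ (a : K → ℝ) (j : ℕ), (∀ k, 0 ≤ a k) → (∀ k, a k ≤ v k) →
    (∀ t, j ≤ t → t ≤ T → ∀ k, k ∉ S t → a k = 0) → ∑ k, a k * (e k) ^ 2 ≤ C * 2 ^ j

lemma sqrt_two_geom (j : ℕ) : ∑ s ∈ Finset.range j, (Real.sqrt 2) ^ s ≤ 3 * (Real.sqrt 2) ^ j := by
  have hq : (4 / 3 : ℝ) ≤ Real.sqrt 2 := by
    apply Real.le_sqrt_of_sq_le
    norm_num
  induction j with
  | zero => simp
  | succ j ih =>
    rw [Finset.sum_range_succ, pow_succ]
    have h1 : (0 : ℝ) ≤ (Real.sqrt 2) ^ j := by positivity
    nlinarith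

lemma sum_Ico_le (t j : ℕ) :
    ∑ s ∈ Finset.Ico t j, (Real.sqrt 2) ^ s ≤ ∑ s ∈ Finset.range j, (Real.sqrt 2) ^ s := by
  apply Finset.sum_le_sum_of_subset_of_nonneg
  · intro s hs
    rw [Finset.mem_Ico] at hs
    exact Finset.mem_range.mpr hs.2
  · intro s _ _
    positivity

/-- The dyadic schedule: after all stages at most `2 c + 2` fractional coordinates remain. -/
lemma schedule_walk2 {K : Type*} [Fintype K] [DecidableEq K] (v : K → ℝ) (hv : ∀ k, 0 ≤ v k)
    (g : K → ι → ℝ) (A : Finset ι) (L₀ : Finset (ι → ℝ)) (T : ℕ) (S : ℕ → Finset K)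
    (hS : ∀ t ≤ T, (S t).card ≤ 2 ^ t)
    (hτ : ∀ i ∈ A, ∑ k, v k * (g k i) ^ 2 ≤ 3)
    (hK : Fintype.card K ≤ 2 ^ (T + 1))
    (ν₀ : ι → ℝ) (hν₀ : ∀ i ∈ A, 0 ≤ ν₀ i ∧ ν₀ i ≤ 1) :
    ∃ ν : ι → ℝ, (∀ i ∈ A, 0 ≤ ν i ∧ ν i ≤ 1) ∧ (∀ i, i ∉ fl A ν₀ → ν i = ν₀ i) ∧
      (fl A ν).card ≤ 2 * L₀.card + 2 ∧ (∀ a ∈ L₀, ∑ i ∈ A, a i * (ν i - ν₀ i) = 0) ∧
      PB v S T (9 * (3 * (L₀.card : ℝ) + 6)) (fun k => ∑ i ∈ A, (ν i - ν₀ i) * g k i) := by
  classical
  set c := L₀.card with hc
  set r₀ : ℝ := Real.sqrt (3 * (c : ℝ) + 6) with hr₀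
  have hr00 : 0 ≤ r₀ := Real.sqrt_nonneg _
  have hr02 : r₀ ^ 2 = 3 * (c : ℝ) + 6 := Real.sq_sqrt (by positivity)
  set q : ℝ := Real.sqrt 2 with hq
  have hq0 : 0 ≤ q := Real.sqrt_nonneg _
  have hq2 : q ^ 2 = 2 := Real.sq_sqrt (by norm_num)
  -- the induction over the stages
  have main : ∀ m : ℕ, m ≤ T + 1 → ∃ ν : ι → ℝ, (∀ i ∈ A, 0 ≤ ν i ∧ ν i ≤ 1) ∧
      (∀ i, i ∉ fl A ν₀ → ν i = ν₀ i) ∧ (fl A ν).card ≤ 2 * c + 2 ^ (T + 2 - m) ∧
      (∀ a ∈ L₀, ∑ i ∈ A, a i * (ν i - ν₀ i) = 0) ∧
      ∀ (a : K → ℝ) (j : ℕ), (∀ k, 0 ≤ a k) → (∀ k, a k ≤ v k) →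
        (∀ t, j ≤ t → t ≤ T → ∀ k, k ∉ S t → a k = 0) →
        ∑ k, a k * (∑ i ∈ A, (ν i - ν₀ i) * g k i) ^ 2 ≤
          (r₀ * ∑ s ∈ Finset.Ico (T + 1 - m) j, q ^ s) ^ 2 := by
    intro m
    induction m with
    | zero =>
      intro _
      -- all coordinates exact
      let L : Finset (ι → ℝ) := L₀ ∪ (Finset.univ : Finset K).image g
      have hLcard : L.card ≤ c + Fintype.card K := by
        calc L.card ≤ L₀.card + ((Finset.univ : Finset K).image g).card := Finset.card_union_le _ _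
          _ ≤ c + Fintype.card K := by
            have : ((Finset.univ : Finset K).image g).card ≤ (Finset.univ : Finset K).card :=
              Finset.card_image_le
            rw [Finset.card_univ] at this
            omega
      obtain ⟨ν, h1, h2, h3, h4, _⟩ := stage (fun _ : K => (0 : ℝ)) (fun _ => le_rfl) g A L
        (2 * (c + Fintype.card K)) (by omega) 0 ν₀ hν₀ (by simp)
      refine ⟨ν, h1, h2, ?_, ?_, ?_⟩
      · have : 2 ^ (T + 2 - 0) = 2 * 2 ^ (T + 1) := by
          rw [Nat.sub_zero, pow_succ]; ring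
        rw [this]
        omega
      · intro a ha
        exact h4 a (Finset.mem_union_left _ ha)
      · intro a j _ _ _
        have h5 : ∀ k, ∑ i ∈ A, (ν i - ν₀ i) * g k i = 0 := by
          intro k
          have := h4 (g k) (Finset.mem_union_right _ (Finset.mem_image_of_mem _ (Finset.mem_univ k)))
          rw [← this]
          exact Finset.sum_congr rfl (fun i _ => by ring)
        simp only [h5]
        simp only [ne_eq, OfNat.ofNat_ne_zero, not_false_eq_true, zero_pow, mul_zero,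
          Finset.sum_const_zero]
        positivity
    | succ m ih =>
      intro hm
      obtain ⟨ν₁, h1, h2, h3, h4, h5⟩ := ih (by omega)
      set t := T - m with ht
      have htT : t ≤ T := Nat.sub_le _ _
      have htm : t + m = T := by omega
      -- the exact functionals of this stage
      let L : Finset (ι → ℝ) := L₀ ∪ (S t).image g
      have hLcard : L.card ≤ c + 2 ^ t := by
        calc L.card ≤ L₀.card + ((S t).image g).card := Finset.card_union_le _ _
          _ ≤ c + 2 ^ t := by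
            have h6 : ((S t).image g).card ≤ (S t).card := Finset.card_image_le
            have h7 := hS t htT
            omega
      obtain ⟨ν, h6, h7, h8, h9, h10⟩ := stage v hv g A L (2 * (c + 2 ^ t)) (by omega)
        3 ν₁ h1 (fun i hi => hτ i (Finset.mem_of_mem_filter i hi))
      refine ⟨ν, h6, ?_, ?_, ?_, ?_⟩
      · intro i hi
        have h11 := h2 i hi
        have h12 : i ∉ fl A ν₁ := by
          intro hmem
          apply hi
          rw [mem_fl] at hmem ⊢
          rwa [h11] at hmem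
        rw [h7 i h12, h11]
      · have h13 : T + 2 - (m + 1) = t + 1 := by omega
        rw [h13, pow_succ]
        omega
      · intro a ha
        have h14 := h9 a (Finset.mem_union_left _ ha)
        have h15 := h4 a ha
        have : ∑ i ∈ A, a i * (ν i - ν₀ i) =
            ∑ i ∈ A, a i * (ν i - ν₁ i) + ∑ i ∈ A, a i * (ν₁ i - ν₀ i) := by
          rw [← Finset.sum_add_distrib]
          exact Finset.sum_congr rfl (fun i _ => by ring)
        rw [this, h14, h15, add_zero]
      · intro a j ha0 hav hsupp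
        -- the masked coordinates
        have h16 : ∀ k, k ∈ S t → ∑ i ∈ A, (ν i - ν₁ i) * g k i = 0 := by
          intro k hk
          have := h9 (g k) (Finset.mem_union_right _ (Finset.mem_image_of_mem _ hk))
          rw [← this]
          exact Finset.sum_congr rfl (fun i _ => by ring)
        -- the size of this stage
        have h18 : (3 : ℝ) * ((fl A ν₁).card : ℝ) / 2 ≤ (r₀ * q ^ t) ^ 2 := by
          have h19 : ((fl A ν₁).card : ℝ) ≤ 2 * (c : ℝ) + 2 ^ (t + 2) := by
            have h20 : T + 2 - m = t + 2 := by omega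
            rw [h20] at h3
            exact_mod_cast h3
          have h21 : (1 : ℝ) ≤ 2 ^ t := one_le_pow₀ (by norm_num)
          have h22 : (r₀ * q ^ t) ^ 2 = (3 * (c : ℝ) + 6) * 2 ^ t := by
            rw [mul_pow, hr02, ← pow_mul, mul_comm t 2, pow_mul, hq2]
          rw [h22]
          rw [pow_add] at h19
          have hc0 : (0 : ℝ) ≤ (c : ℝ) := Nat.cast_nonneg _
          nlinarith [mul_nonneg hc0 (sub_nonneg.mpr h21)]
        have hT0 : T + 1 - m = t + 1 := by omega
        have hT1 : T + 1 - (m + 1) = t := by omega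
        rw [hT1]
        have h5' := h5 a j ha0 hav hsupp
        rw [hT0] at h5'
        have h27 : ∀ k, ∑ i ∈ A, (ν i - ν₀ i) * g k i =
            (∑ i ∈ A, (ν₁ i - ν₀ i) * g k i) + ∑ i ∈ A, (ν i - ν₁ i) * g k i := by
          intro k
          rw [← Finset.sum_add_distrib]
          exact Finset.sum_congr rfl (fun i _ => by ring)
        simp_rw [h27]
        by_cases htj : t < j
        · -- this stage counts
          have h25 : ∑ k, a k * (∑ i ∈ A, (ν i - ν₁ i) * g k i) ^ 2 ≤ (r₀ * q ^ t) ^ 2 := by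
            refine le_trans ?_ (h10.trans h18)
            refine Finset.sum_le_sum (fun k _ => ?_)
            exact mul_le_mul_of_nonneg_right (hav k) (sq_nonneg _)
          have h26 := wsq_add a ha0 (fun k => ∑ i ∈ A, (ν₁ i - ν₀ i) * g k i)
            (fun k => ∑ i ∈ A, (ν i - ν₁ i) * g k i)
            (r₀ * ∑ s ∈ Finset.Ico (t + 1) j, q ^ s) (r₀ * q ^ t)
            (mul_nonneg hr00 (Finset.sum_nonneg (fun s _ => by positivity))) (by positivity) h5' h25
          refine h26.trans (le_of_eq ?_)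
          rw [Finset.sum_eq_sum_Ico_succ_bot htj]
          ring
        · -- this stage vanishes on the weight
          push Not at htj
          have h25 : ∑ k, a k * (∑ i ∈ A, (ν i - ν₁ i) * g k i) ^ 2 ≤ (0 : ℝ) ^ 2 := by
            have h26 : ∀ k, a k * (∑ i ∈ A, (ν i - ν₁ i) * g k i) ^ 2 = 0 := by
              intro k
              by_cases hk : k ∈ S t
              · rw [h16 k hk]
                simp
              · rw [hsupp t htj htT k hk, zero_mul]
            simp [h26]
          have h26 := wsq_add a ha0 (fun k => ∑ i ∈ A, (ν₁ i - ν₀ i) * g k i)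
            (fun k => ∑ i ∈ A, (ν i - ν₁ i) * g k i)
            (r₀ * ∑ s ∈ Finset.Ico (t + 1) j, q ^ s) 0
            (mul_nonneg hr00 (Finset.sum_nonneg (fun s _ => by positivity))) le_rfl h5' h25
          refine h26.trans (le_of_eq ?_)
          rw [Finset.Ico_eq_empty (by omega), Finset.Ico_eq_empty (by omega)]
          simp
  obtain ⟨ν, h1, h2, h3, h4, h5⟩ := main (T + 1) le_rfl
  refine ⟨ν, h1, h2, ?_, h4, ?_⟩
  · have : T + 2 - (T + 1) = 1 := by omega
    rw [this] at h3
    simpa using h3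
  · intro a j ha0 hav hsupp
    have h6 := h5 a j ha0 hav hsupp
    refine h6.trans ?_
    have h7 : T + 1 - (T + 1) = 0 := by omega
    rw [h7]
    have h8 : ∑ s ∈ Finset.Ico 0 j, q ^ s ≤ 3 * q ^ j := by
      rw [hq]
      exact (sum_Ico_le 0 j).trans (sqrt_two_geom j)
    have h9 : 0 ≤ ∑ s ∈ Finset.Ico 0 j, q ^ s := Finset.sum_nonneg (fun s _ => by positivity)
    have h10 : (r₀ * ∑ s ∈ Finset.Ico 0 j, q ^ s) ^ 2 ≤ (r₀ * (3 * q ^ j)) ^ 2 :=
      pow_le_pow_left₀ (mul_nonneg hr00 h9) (mul_le_mul_of_nonneg_left h8 hr00) 2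
    refine h10.trans (le_of_eq ?_)
    rw [mul_pow, mul_pow, hr02, ← pow_mul, mul_comm j 2, pow_mul, hq2]
    ring

end Vale.Agent.Lib.P262.V
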