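import Vale.Agent.Lib.P262.V.NodeC

/-!
The zonotope of committed items: invariants along a path of the tree and the final norm bound.
-/

open scoped RealInnerProductSpace BigOperators
open Module

set_option linter.unusedSectionVars false

namespace Vale.Agent.Lib.P262.V

open Vale.Agent.Lib.P262.U

variable {E : Type*} [NormedAddCommGroup E] [InnerProductSpace ℝ E] [FiniteDimensional ℝ E]
variable {ι : Type*} [DecidableEq ι]

/-- The zonotope spanned by the vectors over `H`. -/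
def Zon (H : Finset ι) (wv : ι → E) (v : E) : Prop :=
  ∃ c : ι → ℝ, (∀ i, |c i| ≤ 1) ∧ v = ∑ i ∈ H, c i • wv i

/-- Count of items of scale `s`. -/
def cntf (H : Finset ι) (sc : ι → ℕ) (s : ℕ) : ℕ := (H.filter (fun i => sc i = s)).card

/-- The constant in the count invariant. -/
noncomputable def c₁ : ℝ := 2 ^ 25 * C₃

namespace Par

variable (P : Par)

/-- Number of doublings from the base scale to the floor. -/
def Ls (s : ℕ) : ℕ := P.e + 2 * s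

/-- Error of a doubling step. -/
noncomputable def err₀ : ℝ := 3 * P.ζ + 4 * P.η

/-- Error per node at scale `s`. -/
noncomputable def bs (s : ℕ) : ℝ :=
  2 * C₃ * κs s * (P.Ls s : ℝ) * P.err₀ + 4 * C₃ * (κs s / P.E₂) ^ 2

end Par

lemma κs_top (P : Par) (s : ℕ) : κs s * 2 ^ (P.Ls s) = P.g := by
  unfold κs Par.Ls Par.g
  rw [pow_add, show (1 / 4 : ℝ) = (1 / 2) ^ 2 by norm_num, ← pow_mul, pow_mul (2 : ℝ) 2 s]
  have h1 : ((1 / 2 : ℝ) ^ 2) ^ s * ((2 : ℝ) ^ 2) ^ s = 1 := by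
    rw [← mul_pow]
    norm_num
  rw [pow_mul (1 / 2 : ℝ) 2 s]
  calc ((1 / 2 : ℝ) ^ 2) ^ s * (2 ^ P.e * ((2 : ℝ) ^ 2) ^ s)
      = (((1 / 2 : ℝ) ^ 2) ^ s * ((2 : ℝ) ^ 2) ^ s) * 2 ^ P.e := by ring
    _ = _ := by rw [h1, one_mul]

lemma c₁_pos : 0 < c₁ := by
  unfold c₁
  have := Par.C₃_pos
  positivity

/-- The invariants along a path. -/
structure HistOK (P : Par) (x : ι → E) (Root A H : Finset ι) (sc : ι → ℕ) (wv : ι → E) : Prop where
  cnt : ∀ s, (cntf H sc s : ℝ) ≤ c₁ * (psi (rkS x Root) (Lam s) - psi (rkS x A) (Lam s))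
  en : ∀ s θ, ‖θ‖ = 1 → ∑ i ∈ H.filter (fun i => sc i = s), ⟪θ, wv i⟫ ^ 2 ≤
    4 * κs s * pf (rkS x A) (κs s) θ + 2 * C₃ * κs s * Wf (rkS x A) (κs s) (P.Ls s) θ +
      P.bs s * (cntf H sc s : ℝ)

lemma hist_mono {P : Par} {x : ι → E} {Root A I H : Finset ι} {sc : ι → ℕ} {wv : ι → E}
    (hI : I ⊆ A) (hist : HistOK P x Root A H sc wv) : HistOK P x Root I H sc wv := by
  have hT := rkS_posOp x A
  have hTI := rkS_posOp x I
  have hle := rkS_mono x hI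
  refine ⟨fun s => ?_, fun s θ hθ => ?_⟩
  · have h1 := hist.cnt s
    have h2 := psi_mono hTI hT hle (Lam_pos s)
    have h3 := mul_le_mul_of_nonneg_left h2 c₁_pos.le
    linarith
  · have h1 := hist.en s θ hθ
    have h2 := pf_anti hTI hT hle (κs_pos s) θ
    have h3 := Wf_mono hTI hT hle (κs_pos s) (P.Ls s) θ
    have hκ := κs_pos s
    have hC := Par.C₃_pos
    have h4 := mul_le_mul_of_nonneg_left h2 (by positivity : 0 ≤ 4 * κs s)
    have h5 := mul_le_mul_of_nonneg_left h3 (by positivity : 0 ≤ 2 * C₃ * κs s)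
    linarith

/-- The update of the invariants at a node that commits items. -/
lemma hist_add {P : Par} (hP : P.Adm) {x : ι → E} (hx : ∀ i, ‖x i‖ ≤ 1) {Root A I H Fc : Finset ι}
    {sc : ι → ℕ} {wv : ι → E} {s : ℕ} {ε : ℝ} (hε0 : 0 ≤ ε) (hεs : ε ≤ κs s)
    {b : OrthonormalBasis (Fin P.n) ℝ E} {μ : Fin P.n → ℝ} (hb : ∀ k, (rkS x A) (b k) = μ k • b k)
    (hμ : ∀ k, 0 ≤ μ k) {Ac : Finset (Fin P.n)} (hAc : Disjoint (thickSet P μ) Ac)
    (hDe : ∀ k, k ∉ thickSet P μ → k ∉ Ac → μ k ≤ ε * P.η ^ 2 / 4)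
    (hsoft : ∀ i ∈ A, ‖sproj b (thickSet P μ)ᶜ (x i)‖ ^ 2 ≤ ε) {h : E}
    (hh : ⟪rkS x A h, h⟫ ≤ P.ζ ^ 2) {σ : ℝ} (hσ : |σ| ≤ 1) (a : ι → ℝ) (F' : Finset ι)
    (hF' : F' ⊆ A) (hcard : F'.card ≤ P.D) (ha : ∀ i ∈ F', |a i| ≤ 1)
    (hbal : ∀ v, ⟪rkS x I v, v⟫ = (1 / 2) * ⟪rkS x A v, v⟫ +
      σ * ∑ i ∈ A, ⟪x i, h⟫ * ⟪x i, v⟫ ^ 2 + ∑ i ∈ F', a i * ⟪x i, v⟫ ^ 2)
    (hblock : ∀ v, (∀ k, k ∉ Ac → ⟪b k, v⟫ = 0) → ∑ i ∈ F', a i * ⟪x i, v⟫ ^ 2 ≤ 0)
    (hFcA : Fc ⊆ A \ I) (hI : I ⊆ A) (hne : Fc.Nonempty) (hFcC : (Fc.card : ℝ) ≤ C₃)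
    (hdrop : cp ≤ psi (rkS x A) (Lam s) - psi (rkS x I) (Lam s)) (hdisj : Disjoint H Fc)
    (hist : HistOK P x Root A H sc wv) :
    HistOK P x Root I (H ∪ Fc) (fun i => if i ∈ Fc then s else sc i)
      (fun i => if i ∈ Fc then P.g • res (rkS x A) P.g (sproj b (thickSet P μ)ᶜ (x i)) else wv i) := by
  set T := rkS x A with hTdef
  have hT := rkS_posOp x A
  have hTI := rkS_posOp x I
  have hle := rkS_mono x hI
  set sc' : ι → ℕ := fun i => if i ∈ Fc then s else sc i with hsc'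
  set wv' : ι → E := fun i => if i ∈ Fc then P.g • res T P.g (sproj b (thickSet P μ)ᶜ (x i))
    else wv i with hwv'
  have hHout : ∀ i ∈ H, i ∉ Fc := fun i hi => Finset.disjoint_left.mp hdisj hi
  have hsc1 : ∀ i ∈ H, sc' i = sc i := fun i hi => by simp [hsc', hHout i hi]
  have hsc2 : ∀ i ∈ Fc, sc' i = s := fun i hi => by simp [hsc', hi]
  have hwv1 : ∀ i ∈ H, wv' i = wv i := fun i hi => by simp [hwv', hHout i hi]
  have hwv2 : ∀ i ∈ Fc, wv' i = P.g • res T P.g (sproj b (thickSet P μ)ᶜ (x i)) :=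
    fun i hi => by simp [hwv', hi]
  -- filters
  have hfil1 : ∀ s', H.filter (fun i => sc' i = s') = H.filter (fun i => sc i = s') := by
    intro s'
    apply Finset.filter_congr
    intro i hi
    rw [hsc1 i hi]
  have hfil2 : ∀ s', s' ≠ s → Fc.filter (fun i => sc' i = s') = ∅ := by
    intro s' hs'
    apply Finset.filter_eq_empty_iff.mpr
    intro i hi
    rw [hsc2 i hi]
    exact fun h1 => hs' h1.symm
  have hfil3 : Fc.filter (fun i => sc' i = s) = Fc := by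
    apply Finset.filter_true_of_mem
    intro i hi
    exact hsc2 i hi
  have hdisjf : ∀ s', Disjoint (H.filter (fun i => sc i = s')) (Fc.filter (fun i => sc' i = s')) :=
    fun s' => Finset.disjoint_filter_filter hdisj
  have hfil : ∀ s', (H ∪ Fc).filter (fun i => sc' i = s') =
      H.filter (fun i => sc i = s') ∪ Fc.filter (fun i => sc' i = s') := by
    intro s'
    rw [Finset.filter_union, hfil1]
  have hcnt0 : ∀ s', s' ≠ s → cntf (H ∪ Fc) sc' s' = cntf H sc s' := by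
    intro s' hs'
    unfold cntf
    rw [hfil, hfil2 s' hs', Finset.union_empty]
  have hcnts : cntf (H ∪ Fc) sc' s = cntf H sc s + Fc.card := by
    unfold cntf
    rw [hfil, Finset.card_union_of_disjoint (hdisjf s), hfil3]
  have hC₃ := Par.C₃_pos
  have hFc1 : (1 : ℝ) ≤ (Fc.card : ℝ) := by
    have : 1 ≤ Fc.card := Finset.card_pos.mpr hne
    exact_mod_cast this
  refine ⟨fun s' => ?_, fun s' θ hθ => ?_⟩
  · have h1 := hist.cnt s'
    by_cases hs' : s' = s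
    · subst hs'
      rw [hcnts]
      push_cast
      have h2 : (Fc.card : ℝ) ≤ c₁ * (psi T (Lam s') - psi (rkS x I) (Lam s')) := by
        have h3 : c₁ * cp ≤ c₁ * (psi T (Lam s') - psi (rkS x I) (Lam s')) :=
          mul_le_mul_of_nonneg_left hdrop c₁_pos.le
        have h4 : c₁ * cp = C₃ := by
          unfold c₁ cp
          have : (2 : ℝ) ^ 25 * (1 / 2) ^ 25 = 1 := by norm_num
          calc (2 : ℝ) ^ 25 * C₃ * (1 / 2) ^ 25 = ((2 : ℝ) ^ 25 * (1 / 2) ^ 25) * C₃ := by ring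
            _ = C₃ := by rw [this, one_mul]
        linarith
      nlinarith
    · rw [hcnt0 s' hs']
      have h2 := psi_mono hTI hT hle (Lam_pos s')
      have h3 := mul_le_mul_of_nonneg_left h2 c₁_pos.le
      linarith
  · have h1 := hist.en s' θ hθ
    have hκ' := κs_pos s'
    have h2 := pf_anti hTI hT hle hκ' θ
    have h3 := Wf_mono hTI hT hle hκ' (P.Ls s') θ
    have h4 := mul_le_mul_of_nonneg_left h2 (by positivity : 0 ≤ 4 * κs s')
    have h5 := mul_le_mul_of_nonneg_left h3 (by positivity : 0 ≤ 2 * C₃ * κs s')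
    have hsum : ∑ i ∈ (H ∪ Fc).filter (fun i => sc' i = s'), ⟪θ, wv' i⟫ ^ 2 =
        ∑ i ∈ H.filter (fun i => sc i = s'), ⟪θ, wv i⟫ ^ 2 +
          ∑ i ∈ Fc.filter (fun i => sc' i = s'), ⟪θ, wv' i⟫ ^ 2 := by
      rw [hfil, Finset.sum_union (hdisjf s')]
      congr 1
      refine Finset.sum_congr rfl (fun i hi => ?_)
      rw [hwv1 i (Finset.mem_filter.mp hi).1]
    rw [hsum]
    by_cases hs' : s' = s
    · subst hs'
      rw [hfil3, hcnts]
      have hg := Par.g_pos (P := P)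
      have hE₂ := Par.E₂_pos (P := P)
      have hηdef : P.η ^ 2 * (P.n : ℝ) ^ 6 = 1 := by
        have hn1 : (1 : ℝ) ≤ (P.n : ℝ) := by exact_mod_cast hP.hn
        unfold Par.η
        field_simp
      have hDE : 8 * (P.D : ℝ) ≤ P.η ^ 2 * P.E₂ := by
        have h6 := hP.hDE
        have h7 := mul_le_mul_of_nonneg_left h6 (sq_nonneg P.η)
        have h8 : P.η ^ 2 * (8 * (P.D : ℝ) * (P.n : ℝ) ^ 6) = 8 * (P.D : ℝ) * (P.η ^ 2 * (P.n : ℝ) ^ 6) := by
          ring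
        rw [h8, hηdef, mul_one] at h7
        exact h7
      have hη0 : 0 ≤ P.η := by
        unfold Par.η
        positivity
      have hη1 : P.η ≤ 1 := by
        have hn1 : (1 : ℝ) ≤ (P.n : ℝ) := by exact_mod_cast hP.hn
        unfold Par.η
        rw [div_le_one (by positivity)]
        exact one_le_pow₀ hn1
      have hE₂2 : 2 ≤ P.E₂ := by
        have h6 : (1 : ℝ) ≤ P.g := Par.one_le_g
        have h7 : P.E₂ = 32 * P.g := rfl
        linarith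
      have hTh : ∀ k ∈ thickSet P μ, P.E₂ ≤ μ k := fun k hk => (Finset.mem_filter.mp hk).2
      have hmid : ∀ l, l < P.Ls s' → pf T (κs s' * 2 ^ l * 2) θ ≤
          pf (rkS x I) (κs s' * 2 ^ l) θ + P.err₀ := by
        intro l _
        have hl : κs s' ≤ κs s' * 2 ^ l := by
          have : (1 : ℝ) ≤ 2 ^ l := one_le_pow₀ (by norm_num)
          nlinarith
        exact mid_step x A I hb hμ (thickSet P μ) Ac hx hE₂2 hTh hAc hDe hsoft Par.ζ_nonneg hh hσ a F'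
          hF' hcard ha hbal hblock (by positivity) hε0 (hεs.trans hl) hDE hη0 hη1 hθ
      have hes := energy_step x A I hb hμ (thickSet P μ) hx hE₂ hTh hsoft hκ' hεs (κs_top P s') Fc
        hFcA hI hθ hmid
      have hsum2 : ∑ i ∈ Fc, ⟪θ, wv' i⟫ ^ 2 =
          ∑ i ∈ Fc, ⟪θ, P.g • res T P.g (sproj b (thickSet P μ)ᶜ (x i))⟫ ^ 2 :=
        Finset.sum_congr rfl (fun i hi => by rw [hwv2 i hi])
      rw [hsum2]
      set U := pf T (κs s') θ
      set U' := pf (rkS x I) (κs s') θ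
      set W := Wf T (κs s') (P.Ls s') θ
      set W' := Wf (rkS x I) (κs s') (P.Ls s') θ
      have herr0 : 0 ≤ P.err₀ := by
        unfold Par.err₀
        have := Par.ζ_nonneg (P := P)
        positivity
      have hLr : (0 : ℝ) ≤ (P.Ls s' : ℝ) := Nat.cast_nonneg _
      have hWW : 0 ≤ W' - W + (P.Ls s' : ℝ) * P.err₀ := by
        have : 0 ≤ (P.Ls s' : ℝ) * P.err₀ := by positivity
        linarith
      have h6 : 2 * (Fc.card : ℝ) * κs s' * (W' - W + (P.Ls s' : ℝ) * P.err₀) ≤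
          2 * C₃ * κs s' * (W' - W + (P.Ls s' : ℝ) * P.err₀) := by
        apply mul_le_mul_of_nonneg_right _ hWW
        apply mul_le_mul_of_nonneg_right _ hκ'.le
        linarith
      have h7 : 4 * (Fc.card : ℝ) * (κs s' / P.E₂) ^ 2 ≤ 4 * C₃ * (κs s' / P.E₂) ^ 2 := by
        apply mul_le_mul_of_nonneg_right _ (sq_nonneg _)
        linarith
      have hbs0 : 0 ≤ P.bs s' := by
        unfold Par.bs
        positivity
      have h8 : P.bs s' * 1 ≤ P.bs s' * (Fc.card : ℝ) :=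
        mul_le_mul_of_nonneg_left hFc1 hbs0
      have h9 : P.bs s' = 2 * C₃ * κs s' * (P.Ls s' : ℝ) * P.err₀ + 4 * C₃ * (κs s' / P.E₂) ^ 2 := rfl
      push_cast
      nlinarith
    · rw [hfil2 s' hs', Finset.sum_empty, add_zero, hcnt0 s' hs']
      linarith

lemma zon_mid {H : Finset ι} {wv : ι → E} {v v' : E} (h1 : Zon H wv v) (h2 : Zon H wv v') :
    Zon H wv ((1 / 2 : ℝ) • (v + v')) := by
  obtain ⟨c, hc, rfl⟩ := h1
  obtain ⟨c', hc', rfl⟩ := h2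
  refine ⟨fun i => (c i + c' i) / 2, fun i => ?_, ?_⟩
  · have h3 := abs_le.mp (hc i)
    have h4 := abs_le.mp (hc' i)
    rw [abs_le]
    constructor <;> linarith [h3.1, h3.2, h4.1, h4.2]
  · rw [← Finset.sum_add_distrib, Finset.smul_sum]
    refine Finset.sum_congr rfl (fun i _ => ?_)
    rw [← add_smul, smul_smul]
    congr 1
    ring

lemma zon_ext {H Fc : Finset ι} {wv wv' : ι → E} {v : E} (hagree : ∀ i ∈ H, wv' i = wv i)
    (hz : Zon H wv v) (hdisj : Disjoint H Fc) (c₂ : ι → ℝ) (hc₂ : ∀ i ∈ Fc, |c₂ i| ≤ 1) :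
    Zon (H ∪ Fc) wv' (v + ∑ i ∈ Fc, c₂ i • wv' i) := by
  obtain ⟨c, hc, rfl⟩ := hz
  refine ⟨fun i => if i ∈ Fc then c₂ i else c i, fun i => ?_, ?_⟩
  · simp only
    split_ifs with h1
    · exact hc₂ i h1
    · exact hc i
  · rw [Finset.sum_union hdisj]
    congr 1
    · refine Finset.sum_congr rfl (fun i hi => ?_)
      have h1 : i ∉ Fc := Finset.disjoint_left.mp hdisj hi
      simp only [if_neg h1]
      rw [hagree i hi]
    · refine Finset.sum_congr rfl (fun i hi => ?_)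
      simp only [if_pos hi]

/-- Closed form of a geometric sum. -/
lemma geo1 (S : ℕ) : ∑ s ∈ Finset.range S, (1 / 2 : ℝ) ^ s * (1 + 2 * (s : ℝ)) ≤ 6 := by
  have h : ∑ s ∈ Finset.range S, (1 / 2 : ℝ) ^ s * (1 + 2 * (s : ℝ)) =
      6 - (1 / 2) ^ S * (4 * (S : ℝ) + 6) := by
    induction S with
    | zero => simp
    | succ S ih =>
      rw [Finset.sum_range_succ, ih, pow_succ]
      push_cast
      ring
  rw [h]
  have : 0 ≤ (1 / 2 : ℝ) ^ S * (4 * (S : ℝ) + 6) := by positivity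
  linarith

lemma geo2 (S : ℕ) : ∑ s ∈ Finset.range S, (1 / 2 : ℝ) ^ s * (1 + 2 * (s : ℝ)) ^ 2 ≤ 34 := by
  have h : ∑ s ∈ Finset.range S, (1 / 2 : ℝ) ^ s * (1 + 2 * (s : ℝ)) ^ 2 =
      34 - (1 / 2) ^ S * (8 * (S : ℝ) ^ 2 + 24 * (S : ℝ) + 34) := by
    induction S with
    | zero => simp
    | succ S ih =>
      rw [Finset.sum_range_succ, ih, pow_succ]
      push_cast
      ring
  rw [h]
  have : 0 ≤ (1 / 2 : ℝ) ^ S * (8 * (S : ℝ) ^ 2 + 24 * (S : ℝ) + 34) := by positivity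
  linarith

lemma geo_fin {t : Finset ℕ} {f : ℕ → ℝ} (hf : ∀ s, 0 ≤ f s) {B : ℝ}
    (hB : ∀ S, ∑ s ∈ Finset.range S, f s ≤ B) : ∑ s ∈ t, f s ≤ B := by
  have h1 : t ⊆ Finset.range (t.sup id + 1) := by
    intro s hs
    rw [Finset.mem_range]
    have := Finset.le_sup (f := id) hs
    simp only [id] at this
    omega
  exact (Finset.sum_le_sum_of_subset_of_nonneg h1 (fun s _ _ => hf s)).trans (hB _)

/-- The constant in the energy bound. -/
noncomputable def Kz : ℝ := 4 + 2 * C₃ + 14 * C₃ * c₁ + 4 * C₃ * c₁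

lemma Kz_pos : 0 < Kz := by
  unfold Kz
  have := Par.C₃_pos
  have := c₁_pos
  positivity

namespace Par

variable {P : Par}

lemma ζ_le_η (hP : P.Adm) : P.ζ ≤ P.η := by
  have hn1 : (1 : ℝ) ≤ (P.n : ℝ) := by exact_mod_cast hP.hn
  have hg := g_pos (P := P)
  have hs : 0 < Real.sqrt P.g := Real.sqrt_pos.mpr hg
  unfold ζ η
  rw [div_le_div_iff₀ hs (by positivity), one_mul]
  apply Real.le_sqrt_of_sq_le
  rw [mul_pow, Ru_sq, ← pow_mul]
  exact hP.hRu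

lemma η_nonneg : 0 ≤ P.η := by
  unfold η
  positivity

lemma n_mul_η (hP : P.Adm) : (P.n : ℝ) * P.η ≤ 1 := by
  have hn1 : (1 : ℝ) ≤ (P.n : ℝ) := by exact_mod_cast hP.hn
  unfold η
  have h1 : (P.n : ℝ) * (1 / (P.n : ℝ) ^ 3) = 1 / (P.n : ℝ) ^ 2 := by
    field_simp
  rw [h1, div_le_one (by positivity)]
  exact one_le_pow₀ hn1

lemma n_le_E₂ (hP : P.Adm) : (P.n : ℝ) ≤ P.E₂ := by
  have hn1 : (1 : ℝ) ≤ (P.n : ℝ) := by exact_mod_cast hP.hn
  have h1 := hP.hDE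
  have h2 : (1 : ℝ) ≤ (P.D : ℝ) := by
    have : 1 ≤ P.D := by
      unfold D
      omega
    exact_mod_cast this
  have h3 : (P.n : ℝ) ≤ (P.n : ℝ) ^ 6 := le_self_pow₀ hn1 (by norm_num)
  nlinarith [pow_pos (lt_of_lt_of_le one_pos hn1) 6]

lemma one_le_E₂ : 1 ≤ P.E₂ := by
  have h1 := one_le_g (P := P)
  have h2 : P.E₂ = 32 * P.g := rfl
  linarith

end Par

/-- Energy at a given scale. -/
lemma en_bound {P : Par} (hP : P.Adm) (hfin : finrank ℝ E = P.n) {x : ι → E}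
    {Root A H : Finset ι} {sc : ι → ℕ} {wv : ι → E} (hist : HistOK P x Root A H sc wv)
    (s : ℕ) {θ : E} (hθ : ‖θ‖ = 1) :
    ∑ i ∈ H.filter (fun i => sc i = s), ⟪θ, wv i⟫ ^ 2 ≤
      κs s * (((P.e : ℝ) + 1) * (1 + 2 * (s : ℝ))) * Kz := by
  have h1 := hist.en s θ hθ
  have hT := rkS_posOp x A
  have hTr := rkS_posOp x Root
  set X := ((P.e : ℝ) + 1) * (1 + 2 * (s : ℝ)) with hX
  have hX1 : 1 ≤ X := by
    have h2 : (0 : ℝ) ≤ (P.e : ℝ) := Nat.cast_nonneg _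
    have h3 : (0 : ℝ) ≤ (s : ℝ) := Nat.cast_nonneg _
    rw [hX]
    nlinarith [mul_nonneg h2 h3]
  have hκ := κs_pos s
  have hκ1 := κs_le s
  have hC := Par.C₃_pos
  have hc1 := c₁_pos
  have hU : pf (rkS x A) (κs s) θ ≤ 1 := by
    have := pf_le hT hκ θ
    rw [hθ] at this
    simpa using this
  have hL : (P.Ls s : ℝ) ≤ X := by
    have h2 : (0 : ℝ) ≤ (P.e : ℝ) := Nat.cast_nonneg _
    have h3 : (0 : ℝ) ≤ (s : ℝ) := Nat.cast_nonneg _
    have h4 : (P.Ls s : ℝ) = (P.e : ℝ) + 2 * (s : ℝ) := by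
      unfold Par.Ls
      push_cast
      ring
    rw [h4, hX]
    nlinarith [mul_nonneg h2 h3]
  have hW : Wf (rkS x A) (κs s) (P.Ls s) θ ≤ X := (Wf_le hT hκ _ hθ).trans hL
  have hn1 : (1 : ℝ) ≤ (P.n : ℝ) := by exact_mod_cast hP.hn
  have hcnt : (cntf H sc s : ℝ) ≤ c₁ * (P.n : ℝ) := by
    have h2 := hist.cnt s
    have h3 := psi_le hTr (Lam_pos s)
    rw [hfin] at h3
    have h4 := psi_nonneg hT (Lam_pos s)
    have h6 : psi (rkS x Root) (Lam s) - psi (rkS x A) (Lam s) ≤ (P.n : ℝ) := by linarith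
    exact h2.trans (mul_le_mul_of_nonneg_left h6 hc1.le)
  -- the error per node, times the dimension
  have herr : (P.n : ℝ) * P.err₀ ≤ 7 := by
    have h2 := Par.n_mul_η hP
    have h3 := Par.ζ_le_η hP
    have h4 : (P.n : ℝ) * P.ζ ≤ (P.n : ℝ) * P.η := mul_le_mul_of_nonneg_left h3 (by positivity)
    unfold Par.err₀
    nlinarith
  have herr0 : 0 ≤ P.err₀ := by
    unfold Par.err₀
    have := Par.ζ_nonneg (P := P)
    have := Par.η_nonneg (P := P)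
    positivity
  have hE : (P.n : ℝ) * (κs s / P.E₂) ^ 2 ≤ κs s := by
    have h2 := Par.n_le_E₂ hP
    have h3 := Par.one_le_E₂ (P := P)
    have h4 : (0 : ℝ) < P.E₂ := by linarith
    have h5 : (P.n : ℝ) * (κs s / P.E₂) ^ 2 = κs s * (κs s * ((P.n : ℝ) / P.E₂ ^ 2)) := by
      field_simp
    rw [h5]
    have h6 : (P.n : ℝ) / P.E₂ ^ 2 ≤ 1 := by
      rw [div_le_one (by positivity)]
      nlinarith
    have h7 : 0 ≤ (P.n : ℝ) / P.E₂ ^ 2 := by positivity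
    have h8 : κs s * ((P.n : ℝ) / P.E₂ ^ 2) ≤ 1 * 1 := mul_le_mul hκ1 h6 h7 zero_le_one
    calc _ ≤ κs s * (1 * 1) := mul_le_mul_of_nonneg_left h8 hκ.le
      _ = _ := by ring
  have hbs : P.bs s * (cntf H sc s : ℝ) ≤ κs s * (c₁ * (14 * C₃ * X + 4 * C₃)) := by
    have hbs0 : 0 ≤ P.bs s := by
      unfold Par.bs
      positivity
    have h2 : P.bs s * (cntf H sc s : ℝ) ≤ P.bs s * (c₁ * (P.n : ℝ)) :=
      mul_le_mul_of_nonneg_left hcnt hbs0
    refine h2.trans ?_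
    have h3 : P.bs s * (c₁ * (P.n : ℝ)) = c₁ * (2 * C₃ * κs s * (P.Ls s : ℝ) *
        ((P.n : ℝ) * P.err₀) + 4 * C₃ * ((P.n : ℝ) * (κs s / P.E₂) ^ 2)) := by
      unfold Par.bs
      ring
    rw [h3]
    have h4 : 2 * C₃ * κs s * (P.Ls s : ℝ) * ((P.n : ℝ) * P.err₀) ≤
        2 * C₃ * κs s * X * 7 := by
      have hLn : (0 : ℝ) ≤ (P.Ls s : ℝ) := Nat.cast_nonneg _
      have h5 : (P.Ls s : ℝ) * ((P.n : ℝ) * P.err₀) ≤ X * 7 :=
        mul_le_mul hL herr (by positivity) (by linarith)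
      calc _ = 2 * C₃ * κs s * ((P.Ls s : ℝ) * ((P.n : ℝ) * P.err₀)) := by ring
        _ ≤ 2 * C₃ * κs s * (X * 7) := mul_le_mul_of_nonneg_left h5 (by positivity)
        _ = _ := by ring
    have h6 : 4 * C₃ * ((P.n : ℝ) * (κs s / P.E₂) ^ 2) ≤ 4 * C₃ * κs s :=
      mul_le_mul_of_nonneg_left hE (by positivity)
    have h8 := mul_le_mul_of_nonneg_left (add_le_add h4 h6) hc1.le
    refine h8.trans (le_of_eq ?_)
    ring
  have hU' : 4 * κs s * pf (rkS x A) (κs s) θ ≤ 4 * κs s * 1 :=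
    mul_le_mul_of_nonneg_left hU (by positivity)
  have hW' : 2 * C₃ * κs s * Wf (rkS x A) (κs s) (P.Ls s) θ ≤ 2 * C₃ * κs s * X :=
    mul_le_mul_of_nonneg_left hW (by positivity)
  refine h1.trans ?_
  have hfinal : 4 * κs s * 1 + 2 * C₃ * κs s * X + κs s * (c₁ * (14 * C₃ * X + 4 * C₃)) ≤
      κs s * X * Kz := by
    have h2 : 4 + 2 * C₃ * X + c₁ * (14 * C₃ * X + 4 * C₃) ≤ X * Kz := by
      unfold Kz
      have h3 : 0 ≤ X - 1 := by linarith
      have h4 : 0 ≤ C₃ * c₁ := by positivity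
      nlinarith [mul_nonneg h3 h4]
    have h3 := mul_le_mul_of_nonneg_left h2 hκ.le
    nlinarith
  linarith

/-- Final bound for the zonotope. -/
theorem zon_norm {P : Par} (hP : P.Adm) (hfin : finrank ℝ E = P.n) {x : ι → E}
    {Root A H : Finset ι} {sc : ι → ℕ} {wv : ι → E} (hist : HistOK P x Root A H sc wv)
    {v : E} (hz : Zon H wv v) :
    ‖v‖ ^ 2 ≤ 36 * c₁ * Kz * (P.n : ℝ) * ((P.e : ℝ) + 1) := by
  have hc1 := c₁_pos
  have hKz := Kz_pos
  have hJ0 : (0 : ℝ) ≤ (P.e : ℝ) := Nat.cast_nonneg _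
  by_cases hv : v = 0
  · rw [hv, norm_zero]
    simp only [ne_eq, OfNat.ofNat_ne_zero, not_false_eq_true, zero_pow]
    positivity
  have hvn : 0 < ‖v‖ := norm_pos_iff.mpr hv
  set θ := (1 / ‖v‖) • v with hθdef
  have hθ : ‖θ‖ = 1 := by
    rw [hθdef, norm_smul, Real.norm_eq_abs, abs_of_pos (by positivity)]
    field_simp
  have hθv : ⟪θ, v⟫ = ‖v‖ := by
    rw [hθdef, inner_smul_left, real_inner_self_eq_norm_sq]
    simp only [conj_trivial]
    field_simp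
  obtain ⟨c, hc, hve⟩ := hz
  set t := H.image sc with ht
  have hmaps : ∀ i ∈ H, sc i ∈ t := fun i hi => Finset.mem_image_of_mem _ hi
  have hsum : ⟪θ, v⟫ = ∑ i ∈ H, c i * ⟪θ, wv i⟫ := by
    rw [hve, inner_sum]
    exact Finset.sum_congr rfl (fun i _ => by rw [inner_smul_right])
  have hcs : (∑ i ∈ H, c i * ⟪θ, wv i⟫) ^ 2 ≤
      (∑ i ∈ H, (1 / 2 : ℝ) ^ sc i) * ∑ i ∈ H, (2 : ℝ) ^ sc i * ⟪θ, wv i⟫ ^ 2 := by
    apply Finset.sum_sq_le_sum_mul_sum_of_sq_le_mul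
    · intro i _
      positivity
    · intro i _
      positivity
    · intro i _
      have h1 : (c i) ^ 2 ≤ 1 := by
        rw [← sq_abs]
        exact pow_le_one₀ (abs_nonneg _) (hc i)
      have h2 : (1 / 2 : ℝ) ^ sc i * ((2 : ℝ) ^ sc i * ⟪θ, wv i⟫ ^ 2) = ⟪θ, wv i⟫ ^ 2 := by
        rw [← mul_assoc, ← mul_pow]
        norm_num
      rw [h2, mul_pow]
      exact (mul_le_mul_of_nonneg_right h1 (sq_nonneg _)).trans (le_of_eq (one_mul _))
  have hT := rkS_posOp x A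
  have hTr := rkS_posOp x Root
  have hn0 : (0 : ℝ) ≤ (P.n : ℝ) := Nat.cast_nonneg _
  -- the count
  have hA1 : ∑ i ∈ H, (1 / 2 : ℝ) ^ sc i ≤ 6 * (c₁ * (P.n : ℝ)) := by
    rw [← Finset.sum_fiberwise_of_maps_to hmaps]
    have h1 : ∀ s ∈ t, ∑ i ∈ H with sc i = s, (1 / 2 : ℝ) ^ sc i ≤
        (c₁ * (P.n : ℝ)) * ((1 / 2 : ℝ) ^ s * (1 + 2 * (s : ℝ))) := by
      intro s _
      have h2 : ∑ i ∈ H with sc i = s, (1 / 2 : ℝ) ^ sc i = (1 / 2 : ℝ) ^ s * (cntf H sc s : ℝ) := by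
        rw [Finset.sum_congr rfl (fun i hi => by rw [(Finset.mem_filter.mp hi).2])]
        rw [Finset.sum_const, nsmul_eq_mul, mul_comm]
        rfl
      rw [h2]
      have h3 := hist.cnt s
      have h4 := psi_le hTr (Lam_pos s)
      rw [hfin] at h4
      have h5 := psi_nonneg hT (Lam_pos s)
      have h7 : psi (rkS x Root) (Lam s) - psi (rkS x A) (Lam s) ≤ (P.n : ℝ) := by linarith
      have h8 : (cntf H sc s : ℝ) ≤ c₁ * (P.n : ℝ) :=
        h3.trans (mul_le_mul_of_nonneg_left h7 hc1.le)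
      have h9 := mul_le_mul_of_nonneg_left h8 (by positivity : (0 : ℝ) ≤ (1 / 2 : ℝ) ^ s)
      refine h9.trans ?_
      have hs0 : (0 : ℝ) ≤ (s : ℝ) := Nat.cast_nonneg _
      have h10 : (1 / 2 : ℝ) ^ s * (c₁ * (P.n : ℝ)) ≤
          (1 / 2 : ℝ) ^ s * (c₁ * (P.n : ℝ)) * (1 + 2 * (s : ℝ)) :=
        le_mul_of_one_le_right (by positivity) (by linarith)
      refine h10.trans (le_of_eq ?_)
      ring
    refine (Finset.sum_le_sum h1).trans ?_
    rw [← Finset.mul_sum]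
    have h2 : ∑ s ∈ t, (1 / 2 : ℝ) ^ s * (1 + 2 * (s : ℝ)) ≤ 6 :=
      geo_fin (fun s => by positivity) geo1
    have h3 : 0 ≤ c₁ * (P.n : ℝ) := by positivity
    have h4 := mul_le_mul_of_nonneg_left h2 h3
    linarith
  -- the energy
  have hA2 : ∑ i ∈ H, (2 : ℝ) ^ sc i * ⟪θ, wv i⟫ ^ 2 ≤ 6 * (((P.e : ℝ) + 1) * Kz) := by
    rw [← Finset.sum_fiberwise_of_maps_to hmaps]
    have h1 : ∀ s ∈ t, ∑ i ∈ H with sc i = s, (2 : ℝ) ^ sc i * ⟪θ, wv i⟫ ^ 2 ≤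
        (((P.e : ℝ) + 1) * Kz) * ((1 / 2 : ℝ) ^ s * (1 + 2 * (s : ℝ))) := by
      intro s _
      have h2 : ∑ i ∈ H with sc i = s, (2 : ℝ) ^ sc i * ⟪θ, wv i⟫ ^ 2 =
          (2 : ℝ) ^ s * ∑ i ∈ H with sc i = s, ⟪θ, wv i⟫ ^ 2 := by
        rw [Finset.mul_sum]
        exact Finset.sum_congr rfl (fun i hi => by rw [(Finset.mem_filter.mp hi).2])
      rw [h2]
      have h3 := en_bound hP hfin hist s hθ
      have h4 := mul_le_mul_of_nonneg_left h3 (by positivity : (0 : ℝ) ≤ (2 : ℝ) ^ s)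
      refine h4.trans (le_of_eq ?_)
      have h5 : (2 : ℝ) ^ s * κs s = (1 / 2) ^ s := by
        unfold κs
        rw [← mul_pow]
        norm_num
      calc (2 : ℝ) ^ s * (κs s * (((P.e : ℝ) + 1) * (1 + 2 * (s : ℝ))) * Kz)
          = ((2 : ℝ) ^ s * κs s) * (((P.e : ℝ) + 1) * (1 + 2 * (s : ℝ)) * Kz) := by ring
        _ = _ := by rw [h5]; ring
    refine (Finset.sum_le_sum h1).trans ?_
    rw [← Finset.mul_sum]
    have h2 : ∑ s ∈ t, (1 / 2 : ℝ) ^ s * (1 + 2 * (s : ℝ)) ≤ 6 :=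
      geo_fin (fun s => by positivity) geo1
    have h3 : 0 ≤ ((P.e : ℝ) + 1) * Kz := by positivity
    have h4 := mul_le_mul_of_nonneg_left h2 h3
    linarith
  have hA20 : 0 ≤ ∑ i ∈ H, (2 : ℝ) ^ sc i * ⟪θ, wv i⟫ ^ 2 :=
    Finset.sum_nonneg (fun i _ => by positivity)
  have hfinal : (∑ i ∈ H, (1 / 2 : ℝ) ^ sc i) * ∑ i ∈ H, (2 : ℝ) ^ sc i * ⟪θ, wv i⟫ ^ 2 ≤
      (6 * (c₁ * (P.n : ℝ))) * (6 * (((P.e : ℝ) + 1) * Kz)) :=
    mul_le_mul hA1 hA2 hA20 (by positivity)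
  have h10 : ‖v‖ ^ 2 = (∑ i ∈ H, c i * ⟪θ, wv i⟫) ^ 2 := by
    rw [← hsum, hθv]
  rw [h10]
  refine hcs.trans (hfinal.trans (le_of_eq ?_))
  ring

end Vale.Agent.Lib.P262.V
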